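import Vale.Agent.P355.H182K.D
import Vale.Agent.P355.H182.Cw

namespace Vale.Agent.P355.H182K

open Vale.Agent.P355 Vale.Agent.P355.H147 Vale.Agent.P355.H998.E Vale.Agent.P355.H41.F1

theorem c0_0 : H182.Cw.PW 4 3 3 D cls mv 0 0 40 := H182.Cw.PW.ck 0 0 39 40 (by decide +kernel)

theorem c0_1 : H182.Cw.PW 4 3 3 D cls mv 0 40 80 := H182.Cw.PW.ck 0 40 39 80 (by decide +kernel)

theorem c0_2 : H182.Cw.PW 4 3 3 D cls mv 0 80 120 := H182.Cw.PW.ck 0 80 39 120 (by decide +kernel)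

theorem c0_3 : H182.Cw.PW 4 3 3 D cls mv 0 120 160 := H182.Cw.PW.ck 0 120 39 160 (by decide +kernel)

theorem c0_4 : H182.Cw.PW 4 3 3 D cls mv 0 160 200 := H182.Cw.PW.ck 0 160 39 200 (by decide +kernel)

theorem c0_5 : H182.Cw.PW 4 3 3 D cls mv 0 200 240 := H182.Cw.PW.ck 0 200 39 240 (by decide +kernel)

theorem c0 : CW 4 3 3 D cls mv 0 (Nat.add 0 1) := ((((((c0_0).trans c0_1).trans c0_2).trans c0_3).trans c0_4).trans c0_5).cw hnk (by decide +kernel)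

theorem cm0 : CW 4 3 3 D cls mv 0 1 := c0

end Vale.Agent.P355.H182K
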