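import Vale.Agent.P355.H182K.D
import Vale.Agent.P355.H182.Cw

namespace Vale.Agent.P355.H182K

open Vale.Agent.P355 Vale.Agent.P355.H147 Vale.Agent.P355.H998.E Vale.Agent.P355.H41.F1

theorem c1_0 : H182.Cw.PW 4 3 3 D cls mv 1 1 40 := H182.Cw.PW.ck 1 1 38 40 (by decide +kernel)

theorem c1_1 : H182.Cw.PW 4 3 3 D cls mv 1 40 80 := H182.Cw.PW.ck 1 40 39 80 (by decide +kernel)

theorem c1_2 : H182.Cw.PW 4 3 3 D cls mv 1 80 120 := H182.Cw.PW.ck 1 80 39 120 (by decide +kernel)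

theorem c1_3 : H182.Cw.PW 4 3 3 D cls mv 1 120 160 := H182.Cw.PW.ck 1 120 39 160 (by decide +kernel)

theorem c1_4 : H182.Cw.PW 4 3 3 D cls mv 1 160 200 := H182.Cw.PW.ck 1 160 39 200 (by decide +kernel)

theorem c1_5 : H182.Cw.PW 4 3 3 D cls mv 1 200 240 := H182.Cw.PW.ck 1 200 39 240 (by decide +kernel)

theorem c1 : CW 4 3 3 D cls mv 1 (Nat.add 1 1) := ((((((c1_0).trans c1_1).trans c1_2).trans c1_3).trans c1_4).trans c1_5).cw hnk (by decide +kernel)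

theorem cm1 : CW 4 3 3 D cls mv 1 2 := c1

end Vale.Agent.P355.H182K
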