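import Vale.Agent.P355.H182K.D
import Vale.Agent.P355.H182.Cw

namespace Vale.Agent.P355.H182K

open Vale.Agent.P355 Vale.Agent.P355.H147 Vale.Agent.P355.H998.E Vale.Agent.P355.H41.F1

theorem c10_0 : H182.Cw.PW 4 3 3 D cls mv 10 10 48 := H182.Cw.PW.ck 10 10 37 48 (by decide +kernel)

theorem c10_1 : H182.Cw.PW 4 3 3 D cls mv 10 48 86 := H182.Cw.PW.ck 10 48 37 86 (by decide +kernel)

theorem c10_2 : H182.Cw.PW 4 3 3 D cls mv 10 86 125 := H182.Cw.PW.ck 10 86 38 125 (by decide +kernel)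

theorem c10_3 : H182.Cw.PW 4 3 3 D cls mv 10 125 163 := H182.Cw.PW.ck 10 125 37 163 (by decide +kernel)

theorem c10_4 : H182.Cw.PW 4 3 3 D cls mv 10 163 201 := H182.Cw.PW.ck 10 163 37 201 (by decide +kernel)

theorem c10_5 : H182.Cw.PW 4 3 3 D cls mv 10 201 240 := H182.Cw.PW.ck 10 201 38 240 (by decide +kernel)

theorem c10 : CW 4 3 3 D cls mv 10 (Nat.add 10 1) := ((((((c10_0).trans c10_1).trans c10_2).trans c10_3).trans c10_4).trans c10_5).cw hnk (by decide +kernel)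

theorem cm10 : CW 4 3 3 D cls mv 10 11 := c10

end Vale.Agent.P355.H182K
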