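import Vale.Agent.P355.H182K.D
import Vale.Agent.P355.H182.Cw

namespace Vale.Agent.P355.H182K

open Vale.Agent.P355 Vale.Agent.P355.H147 Vale.Agent.P355.H998.E Vale.Agent.P355.H41.F1

theorem c100_0 : H182.Cw.PW 4 3 3 D cls mv 100 100 135 := H182.Cw.PW.ck 100 100 34 135 (by decide +kernel)

theorem c100_1 : H182.Cw.PW 4 3 3 D cls mv 100 135 170 := H182.Cw.PW.ck 100 135 34 170 (by decide +kernel)

theorem c100_2 : H182.Cw.PW 4 3 3 D cls mv 100 170 205 := H182.Cw.PW.ck 100 170 34 205 (by decide +kernel)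

theorem c100_3 : H182.Cw.PW 4 3 3 D cls mv 100 205 240 := H182.Cw.PW.ck 100 205 34 240 (by decide +kernel)

theorem c100 : CW 4 3 3 D cls mv 100 (Nat.add 100 1) := ((((c100_0).trans c100_1).trans c100_2).trans c100_3).cw hnk (by decide +kernel)

theorem cm100 : CW 4 3 3 D cls mv 100 101 := c100

end Vale.Agent.P355.H182K
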