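import Vale.Agent.P355.H182K.D
import Vale.Agent.P355.H182.Cw

namespace Vale.Agent.P355.H182K

open Vale.Agent.P355 Vale.Agent.P355.H147 Vale.Agent.P355.H998.E Vale.Agent.P355.H41.F1

theorem c101_0 : H182.Cw.PW 4 3 3 D cls mv 101 101 135 := H182.Cw.PW.ck 101 101 33 135 (by decide +kernel)

theorem c101_1 : H182.Cw.PW 4 3 3 D cls mv 101 135 170 := H182.Cw.PW.ck 101 135 34 170 (by decide +kernel)

theorem c101_2 : H182.Cw.PW 4 3 3 D cls mv 101 170 205 := H182.Cw.PW.ck 101 170 34 205 (by decide +kernel)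

theorem c101_3 : H182.Cw.PW 4 3 3 D cls mv 101 205 240 := H182.Cw.PW.ck 101 205 34 240 (by decide +kernel)

theorem c101 : CW 4 3 3 D cls mv 101 (Nat.add 101 1) := ((((c101_0).trans c101_1).trans c101_2).trans c101_3).cw hnk (by decide +kernel)

theorem cm101 : CW 4 3 3 D cls mv 101 102 := c101

end Vale.Agent.P355.H182K
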