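import Vale.Agent.P355.H182K.D
import Vale.Agent.P355.H182.Cw

namespace Vale.Agent.P355.H182K

open Vale.Agent.P355 Vale.Agent.P355.H147 Vale.Agent.P355.H998.E Vale.Agent.P355.H41.F1

theorem c103_0 : H182.Cw.PW 4 3 3 D cls mv 103 103 137 := H182.Cw.PW.ck 103 103 33 137 (by decide +kernel)

theorem c103_1 : H182.Cw.PW 4 3 3 D cls mv 103 137 171 := H182.Cw.PW.ck 103 137 33 171 (by decide +kernel)

theorem c103_2 : H182.Cw.PW 4 3 3 D cls mv 103 171 205 := H182.Cw.PW.ck 103 171 33 205 (by decide +kernel)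

theorem c103_3 : H182.Cw.PW 4 3 3 D cls mv 103 205 240 := H182.Cw.PW.ck 103 205 34 240 (by decide +kernel)

theorem c103 : CW 4 3 3 D cls mv 103 (Nat.add 103 1) := ((((c103_0).trans c103_1).trans c103_2).trans c103_3).cw hnk (by decide +kernel)

theorem cm103 : CW 4 3 3 D cls mv 103 104 := c103

end Vale.Agent.P355.H182K
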