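import Vale.Agent.P355.H182K.D
import Vale.Agent.P355.H182.Cw

namespace Vale.Agent.P355.H182K

open Vale.Agent.P355 Vale.Agent.P355.H147 Vale.Agent.P355.H998.E Vale.Agent.P355.H41.F1

theorem c105_0 : H182.Cw.PW 4 3 3 D cls mv 105 105 138 := H182.Cw.PW.ck 105 105 32 138 (by decide +kernel)

theorem c105_1 : H182.Cw.PW 4 3 3 D cls mv 105 138 172 := H182.Cw.PW.ck 105 138 33 172 (by decide +kernel)

theorem c105_2 : H182.Cw.PW 4 3 3 D cls mv 105 172 206 := H182.Cw.PW.ck 105 172 33 206 (by decide +kernel)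

theorem c105_3 : H182.Cw.PW 4 3 3 D cls mv 105 206 240 := H182.Cw.PW.ck 105 206 33 240 (by decide +kernel)

theorem c105 : CW 4 3 3 D cls mv 105 (Nat.add 105 1) := ((((c105_0).trans c105_1).trans c105_2).trans c105_3).cw hnk (by decide +kernel)

theorem cm105 : CW 4 3 3 D cls mv 105 106 := c105

end Vale.Agent.P355.H182K
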