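import Vale.Agent.P355.H182K.D
import Vale.Agent.P355.H182.Cw

namespace Vale.Agent.P355.H182K

open Vale.Agent.P355 Vale.Agent.P355.H147 Vale.Agent.P355.H998.E Vale.Agent.P355.H41.F1

theorem c106_0 : H182.Cw.PW 4 3 3 D cls mv 106 106 139 := H182.Cw.PW.ck 106 106 32 139 (by decide +kernel)

theorem c106_1 : H182.Cw.PW 4 3 3 D cls mv 106 139 173 := H182.Cw.PW.ck 106 139 33 173 (by decide +kernel)

theorem c106_2 : H182.Cw.PW 4 3 3 D cls mv 106 173 206 := H182.Cw.PW.ck 106 173 32 206 (by decide +kernel)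

theorem c106_3 : H182.Cw.PW 4 3 3 D cls mv 106 206 240 := H182.Cw.PW.ck 106 206 33 240 (by decide +kernel)

theorem c106 : CW 4 3 3 D cls mv 106 (Nat.add 106 1) := ((((c106_0).trans c106_1).trans c106_2).trans c106_3).cw hnk (by decide +kernel)

theorem cm106 : CW 4 3 3 D cls mv 106 107 := c106

end Vale.Agent.P355.H182K
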