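import Vale.Agent.P355.H182K.D
import Vale.Agent.P355.H182.Cw

namespace Vale.Agent.P355.H182K

open Vale.Agent.P355 Vale.Agent.P355.H147 Vale.Agent.P355.H998.E Vale.Agent.P355.H41.F1

theorem c107_0 : H182.Cw.PW 4 3 3 D cls mv 107 107 140 := H182.Cw.PW.ck 107 107 32 140 (by decide +kernel)

theorem c107_1 : H182.Cw.PW 4 3 3 D cls mv 107 140 173 := H182.Cw.PW.ck 107 140 32 173 (by decide +kernel)

theorem c107_2 : H182.Cw.PW 4 3 3 D cls mv 107 173 206 := H182.Cw.PW.ck 107 173 32 206 (by decide +kernel)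

theorem c107_3 : H182.Cw.PW 4 3 3 D cls mv 107 206 240 := H182.Cw.PW.ck 107 206 33 240 (by decide +kernel)

theorem c107 : CW 4 3 3 D cls mv 107 (Nat.add 107 1) := ((((c107_0).trans c107_1).trans c107_2).trans c107_3).cw hnk (by decide +kernel)

theorem cm107 : CW 4 3 3 D cls mv 107 108 := c107

end Vale.Agent.P355.H182K
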