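import Vale.Agent.P355.H182K.D
import Vale.Agent.P355.H182.Cw

namespace Vale.Agent.P355.H182K

open Vale.Agent.P355 Vale.Agent.P355.H147 Vale.Agent.P355.H998.E Vale.Agent.P355.H41.F1

theorem c11_0 : H182.Cw.PW 4 3 3 D cls mv 11 11 49 := H182.Cw.PW.ck 11 11 37 49 (by decide +kernel)

theorem c11_1 : H182.Cw.PW 4 3 3 D cls mv 11 49 87 := H182.Cw.PW.ck 11 49 37 87 (by decide +kernel)

theorem c11_2 : H182.Cw.PW 4 3 3 D cls mv 11 87 125 := H182.Cw.PW.ck 11 87 37 125 (by decide +kernel)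

theorem c11_3 : H182.Cw.PW 4 3 3 D cls mv 11 125 163 := H182.Cw.PW.ck 11 125 37 163 (by decide +kernel)

theorem c11_4 : H182.Cw.PW 4 3 3 D cls mv 11 163 201 := H182.Cw.PW.ck 11 163 37 201 (by decide +kernel)

theorem c11_5 : H182.Cw.PW 4 3 3 D cls mv 11 201 240 := H182.Cw.PW.ck 11 201 38 240 (by decide +kernel)

theorem c11 : CW 4 3 3 D cls mv 11 (Nat.add 11 1) := ((((((c11_0).trans c11_1).trans c11_2).trans c11_3).trans c11_4).trans c11_5).cw hnk (by decide +kernel)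

theorem cm11 : CW 4 3 3 D cls mv 11 12 := c11

end Vale.Agent.P355.H182K
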