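import Vale.Agent.P355.H182K.D
import Vale.Agent.P355.H182.Cw

namespace Vale.Agent.P355.H182K

open Vale.Agent.P355 Vale.Agent.P355.H147 Vale.Agent.P355.H998.E Vale.Agent.P355.H41.F1

theorem c110_0 : H182.Cw.PW 4 3 3 D cls mv 110 110 142 := H182.Cw.PW.ck 110 110 31 142 (by decide +kernel)

theorem c110_1 : H182.Cw.PW 4 3 3 D cls mv 110 142 175 := H182.Cw.PW.ck 110 142 32 175 (by decide +kernel)

theorem c110_2 : H182.Cw.PW 4 3 3 D cls mv 110 175 207 := H182.Cw.PW.ck 110 175 31 207 (by decide +kernel)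

theorem c110_3 : H182.Cw.PW 4 3 3 D cls mv 110 207 240 := H182.Cw.PW.ck 110 207 32 240 (by decide +kernel)

theorem c110 : CW 4 3 3 D cls mv 110 (Nat.add 110 1) := ((((c110_0).trans c110_1).trans c110_2).trans c110_3).cw hnk (by decide +kernel)

theorem cm110 : CW 4 3 3 D cls mv 110 111 := c110

end Vale.Agent.P355.H182K
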