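import Vale.Agent.P355.H182K.D
import Vale.Agent.P355.H182.Cw

namespace Vale.Agent.P355.H182K

open Vale.Agent.P355 Vale.Agent.P355.H147 Vale.Agent.P355.H998.E Vale.Agent.P355.H41.F1

theorem c111_0 : H182.Cw.PW 4 3 3 D cls mv 111 111 143 := H182.Cw.PW.ck 111 111 31 143 (by decide +kernel)

theorem c111_1 : H182.Cw.PW 4 3 3 D cls mv 111 143 175 := H182.Cw.PW.ck 111 143 31 175 (by decide +kernel)

theorem c111_2 : H182.Cw.PW 4 3 3 D cls mv 111 175 207 := H182.Cw.PW.ck 111 175 31 207 (by decide +kernel)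

theorem c111_3 : H182.Cw.PW 4 3 3 D cls mv 111 207 240 := H182.Cw.PW.ck 111 207 32 240 (by decide +kernel)

theorem c111 : CW 4 3 3 D cls mv 111 (Nat.add 111 1) := ((((c111_0).trans c111_1).trans c111_2).trans c111_3).cw hnk (by decide +kernel)

theorem cm111 : CW 4 3 3 D cls mv 111 112 := c111

end Vale.Agent.P355.H182K
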