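import Vale.Agent.P355.H182K.D
import Vale.Agent.P355.H182.Cw

namespace Vale.Agent.P355.H182K

open Vale.Agent.P355 Vale.Agent.P355.H147 Vale.Agent.P355.H998.E Vale.Agent.P355.H41.F1

theorem c112_0 : H182.Cw.PW 4 3 3 D cls mv 112 112 144 := H182.Cw.PW.ck 112 112 31 144 (by decide +kernel)

theorem c112_1 : H182.Cw.PW 4 3 3 D cls mv 112 144 176 := H182.Cw.PW.ck 112 144 31 176 (by decide +kernel)

theorem c112_2 : H182.Cw.PW 4 3 3 D cls mv 112 176 208 := H182.Cw.PW.ck 112 176 31 208 (by decide +kernel)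

theorem c112_3 : H182.Cw.PW 4 3 3 D cls mv 112 208 240 := H182.Cw.PW.ck 112 208 31 240 (by decide +kernel)

theorem c112 : CW 4 3 3 D cls mv 112 (Nat.add 112 1) := ((((c112_0).trans c112_1).trans c112_2).trans c112_3).cw hnk (by decide +kernel)

theorem cm112 : CW 4 3 3 D cls mv 112 113 := c112

end Vale.Agent.P355.H182K
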