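import Vale.Agent.P355.H182K.D
import Vale.Agent.P355.H182.Cw

namespace Vale.Agent.P355.H182K

open Vale.Agent.P355 Vale.Agent.P355.H147 Vale.Agent.P355.H998.E Vale.Agent.P355.H41.F1

theorem c113_0 : H182.Cw.PW 4 3 3 D cls mv 113 113 144 := H182.Cw.PW.ck 113 113 30 144 (by decide +kernel)

theorem c113_1 : H182.Cw.PW 4 3 3 D cls mv 113 144 176 := H182.Cw.PW.ck 113 144 31 176 (by decide +kernel)

theorem c113_2 : H182.Cw.PW 4 3 3 D cls mv 113 176 208 := H182.Cw.PW.ck 113 176 31 208 (by decide +kernel)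

theorem c113_3 : H182.Cw.PW 4 3 3 D cls mv 113 208 240 := H182.Cw.PW.ck 113 208 31 240 (by decide +kernel)

theorem c113 : CW 4 3 3 D cls mv 113 (Nat.add 113 1) := ((((c113_0).trans c113_1).trans c113_2).trans c113_3).cw hnk (by decide +kernel)

theorem cm113 : CW 4 3 3 D cls mv 113 114 := c113

end Vale.Agent.P355.H182K
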