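import Vale.Agent.P355.H182K.D
import Vale.Agent.P355.H182.Cw

namespace Vale.Agent.P355.H182K

open Vale.Agent.P355 Vale.Agent.P355.H147 Vale.Agent.P355.H998.E Vale.Agent.P355.H41.F1

theorem c114_0 : H182.Cw.PW 4 3 3 D cls mv 114 114 145 := H182.Cw.PW.ck 114 114 30 145 (by decide +kernel)

theorem c114_1 : H182.Cw.PW 4 3 3 D cls mv 114 145 177 := H182.Cw.PW.ck 114 145 31 177 (by decide +kernel)

theorem c114_2 : H182.Cw.PW 4 3 3 D cls mv 114 177 208 := H182.Cw.PW.ck 114 177 30 208 (by decide +kernel)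

theorem c114_3 : H182.Cw.PW 4 3 3 D cls mv 114 208 240 := H182.Cw.PW.ck 114 208 31 240 (by decide +kernel)

theorem c114 : CW 4 3 3 D cls mv 114 (Nat.add 114 1) := ((((c114_0).trans c114_1).trans c114_2).trans c114_3).cw hnk (by decide +kernel)

theorem cm114 : CW 4 3 3 D cls mv 114 115 := c114

end Vale.Agent.P355.H182K
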