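import Vale.Agent.P355.H182K.D
import Vale.Agent.P355.H182.Cw

namespace Vale.Agent.P355.H182K

open Vale.Agent.P355 Vale.Agent.P355.H147 Vale.Agent.P355.H998.E Vale.Agent.P355.H41.F1

theorem c115_0 : H182.Cw.PW 4 3 3 D cls mv 115 115 156 := H182.Cw.PW.ck 115 115 40 156 (by decide +kernel)

theorem c115_1 : H182.Cw.PW 4 3 3 D cls mv 115 156 198 := H182.Cw.PW.ck 115 156 41 198 (by decide +kernel)

theorem c115_2 : H182.Cw.PW 4 3 3 D cls mv 115 198 240 := H182.Cw.PW.ck 115 198 41 240 (by decide +kernel)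

theorem c115 : CW 4 3 3 D cls mv 115 (Nat.add 115 1) := (((c115_0).trans c115_1).trans c115_2).cw hnk (by decide +kernel)

theorem cm115 : CW 4 3 3 D cls mv 115 116 := c115

end Vale.Agent.P355.H182K
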