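import Vale.Agent.P355.H182K.D
import Vale.Agent.P355.H182.Cw

namespace Vale.Agent.P355.H182K

open Vale.Agent.P355 Vale.Agent.P355.H147 Vale.Agent.P355.H998.E Vale.Agent.P355.H41.F1

theorem c116_0 : H182.Cw.PW 4 3 3 D cls mv 116 116 157 := H182.Cw.PW.ck 116 116 40 157 (by decide +kernel)

theorem c116_1 : H182.Cw.PW 4 3 3 D cls mv 116 157 198 := H182.Cw.PW.ck 116 157 40 198 (by decide +kernel)

theorem c116_2 : H182.Cw.PW 4 3 3 D cls mv 116 198 240 := H182.Cw.PW.ck 116 198 41 240 (by decide +kernel)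

theorem c116 : CW 4 3 3 D cls mv 116 (Nat.add 116 1) := (((c116_0).trans c116_1).trans c116_2).cw hnk (by decide +kernel)

theorem cm116 : CW 4 3 3 D cls mv 116 117 := c116

end Vale.Agent.P355.H182K
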