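import Vale.Agent.P355.H182K.D
import Vale.Agent.P355.H182.Cw

namespace Vale.Agent.P355.H182K

open Vale.Agent.P355 Vale.Agent.P355.H147 Vale.Agent.P355.H998.E Vale.Agent.P355.H41.F1

theorem c118_0 : H182.Cw.PW 4 3 3 D cls mv 118 118 158 := H182.Cw.PW.ck 118 118 39 158 (by decide +kernel)

theorem c118_1 : H182.Cw.PW 4 3 3 D cls mv 118 158 199 := H182.Cw.PW.ck 118 158 40 199 (by decide +kernel)

theorem c118_2 : H182.Cw.PW 4 3 3 D cls mv 118 199 240 := H182.Cw.PW.ck 118 199 40 240 (by decide +kernel)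

theorem c118 : CW 4 3 3 D cls mv 118 (Nat.add 118 1) := (((c118_0).trans c118_1).trans c118_2).cw hnk (by decide +kernel)

theorem cm118 : CW 4 3 3 D cls mv 118 119 := c118

end Vale.Agent.P355.H182K
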