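import Vale.Agent.P355.H182K.D
import Vale.Agent.P355.H182.Cw

namespace Vale.Agent.P355.H182K

open Vale.Agent.P355 Vale.Agent.P355.H147 Vale.Agent.P355.H998.E Vale.Agent.P355.H41.F1

theorem c12_0 : H182.Cw.PW 4 3 3 D cls mv 12 12 50 := H182.Cw.PW.ck 12 12 37 50 (by decide +kernel)

theorem c12_1 : H182.Cw.PW 4 3 3 D cls mv 12 50 88 := H182.Cw.PW.ck 12 50 37 88 (by decide +kernel)

theorem c12_2 : H182.Cw.PW 4 3 3 D cls mv 12 88 126 := H182.Cw.PW.ck 12 88 37 126 (by decide +kernel)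

theorem c12_3 : H182.Cw.PW 4 3 3 D cls mv 12 126 164 := H182.Cw.PW.ck 12 126 37 164 (by decide +kernel)

theorem c12_4 : H182.Cw.PW 4 3 3 D cls mv 12 164 202 := H182.Cw.PW.ck 12 164 37 202 (by decide +kernel)

theorem c12_5 : H182.Cw.PW 4 3 3 D cls mv 12 202 240 := H182.Cw.PW.ck 12 202 37 240 (by decide +kernel)

theorem c12 : CW 4 3 3 D cls mv 12 (Nat.add 12 1) := ((((((c12_0).trans c12_1).trans c12_2).trans c12_3).trans c12_4).trans c12_5).cw hnk (by decide +kernel)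

theorem cm12 : CW 4 3 3 D cls mv 12 13 := c12

end Vale.Agent.P355.H182K
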