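import Vale.Agent.P355.H182K.D
import Vale.Agent.P355.H182.Cw

namespace Vale.Agent.P355.H182K

open Vale.Agent.P355 Vale.Agent.P355.H147 Vale.Agent.P355.H998.E Vale.Agent.P355.H41.F1

theorem c121_0 : H182.Cw.PW 4 3 3 D cls mv 121 121 160 := H182.Cw.PW.ck 121 121 38 160 (by decide +kernel)

theorem c121_1 : H182.Cw.PW 4 3 3 D cls mv 121 160 200 := H182.Cw.PW.ck 121 160 39 200 (by decide +kernel)

theorem c121_2 : H182.Cw.PW 4 3 3 D cls mv 121 200 240 := H182.Cw.PW.ck 121 200 39 240 (by decide +kernel)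

theorem c121 : CW 4 3 3 D cls mv 121 (Nat.add 121 1) := (((c121_0).trans c121_1).trans c121_2).cw hnk (by decide +kernel)

theorem cm121 : CW 4 3 3 D cls mv 121 122 := c121

end Vale.Agent.P355.H182K
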