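import Vale.Agent.P355.H182K.D
import Vale.Agent.P355.H182.Cw

namespace Vale.Agent.P355.H182K

open Vale.Agent.P355 Vale.Agent.P355.H147 Vale.Agent.P355.H998.E Vale.Agent.P355.H41.F1

theorem c122_0 : H182.Cw.PW 4 3 3 D cls mv 122 122 161 := H182.Cw.PW.ck 122 122 38 161 (by decide +kernel)

theorem c122_1 : H182.Cw.PW 4 3 3 D cls mv 122 161 200 := H182.Cw.PW.ck 122 161 38 200 (by decide +kernel)

theorem c122_2 : H182.Cw.PW 4 3 3 D cls mv 122 200 240 := H182.Cw.PW.ck 122 200 39 240 (by decide +kernel)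

theorem c122 : CW 4 3 3 D cls mv 122 (Nat.add 122 1) := (((c122_0).trans c122_1).trans c122_2).cw hnk (by decide +kernel)

theorem cm122 : CW 4 3 3 D cls mv 122 123 := c122

end Vale.Agent.P355.H182K
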