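import Vale.Agent.P355.H182K.D
import Vale.Agent.P355.H182.Cw

namespace Vale.Agent.P355.H182K

open Vale.Agent.P355 Vale.Agent.P355.H147 Vale.Agent.P355.H998.E Vale.Agent.P355.H41.F1

theorem c123_0 : H182.Cw.PW 4 3 3 D cls mv 123 123 162 := H182.Cw.PW.ck 123 123 38 162 (by decide +kernel)

theorem c123_1 : H182.Cw.PW 4 3 3 D cls mv 123 162 201 := H182.Cw.PW.ck 123 162 38 201 (by decide +kernel)

theorem c123_2 : H182.Cw.PW 4 3 3 D cls mv 123 201 240 := H182.Cw.PW.ck 123 201 38 240 (by decide +kernel)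

theorem c123 : CW 4 3 3 D cls mv 123 (Nat.add 123 1) := (((c123_0).trans c123_1).trans c123_2).cw hnk (by decide +kernel)

theorem cm123 : CW 4 3 3 D cls mv 123 124 := c123

end Vale.Agent.P355.H182K
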