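import Vale.Agent.P355.H182K.D
import Vale.Agent.P355.H182.Cw

namespace Vale.Agent.P355.H182K

open Vale.Agent.P355 Vale.Agent.P355.H147 Vale.Agent.P355.H998.E Vale.Agent.P355.H41.F1

theorem c126_0 : H182.Cw.PW 4 3 3 D cls mv 126 126 164 := H182.Cw.PW.ck 126 126 37 164 (by decide +kernel)

theorem c126_1 : H182.Cw.PW 4 3 3 D cls mv 126 164 202 := H182.Cw.PW.ck 126 164 37 202 (by decide +kernel)

theorem c126_2 : H182.Cw.PW 4 3 3 D cls mv 126 202 240 := H182.Cw.PW.ck 126 202 37 240 (by decide +kernel)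

theorem c126 : CW 4 3 3 D cls mv 126 (Nat.add 126 1) := (((c126_0).trans c126_1).trans c126_2).cw hnk (by decide +kernel)

theorem cm126 : CW 4 3 3 D cls mv 126 127 := c126

end Vale.Agent.P355.H182K
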