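import Vale.Agent.P355.H182K.D
import Vale.Agent.P355.H182.Cw

namespace Vale.Agent.P355.H182K

open Vale.Agent.P355 Vale.Agent.P355.H147 Vale.Agent.P355.H998.E Vale.Agent.P355.H41.F1

theorem c127_0 : H182.Cw.PW 4 3 3 D cls mv 127 127 164 := H182.Cw.PW.ck 127 127 36 164 (by decide +kernel)

theorem c127_1 : H182.Cw.PW 4 3 3 D cls mv 127 164 202 := H182.Cw.PW.ck 127 164 37 202 (by decide +kernel)

theorem c127_2 : H182.Cw.PW 4 3 3 D cls mv 127 202 240 := H182.Cw.PW.ck 127 202 37 240 (by decide +kernel)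

theorem c127 : CW 4 3 3 D cls mv 127 (Nat.add 127 1) := (((c127_0).trans c127_1).trans c127_2).cw hnk (by decide +kernel)

theorem cm127 : CW 4 3 3 D cls mv 127 128 := c127

end Vale.Agent.P355.H182K
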