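import Vale.Agent.P355.H182K.D
import Vale.Agent.P355.H182.Cw

namespace Vale.Agent.P355.H182K

open Vale.Agent.P355 Vale.Agent.P355.H147 Vale.Agent.P355.H998.E Vale.Agent.P355.H41.F1

theorem c128_0 : H182.Cw.PW 4 3 3 D cls mv 128 128 165 := H182.Cw.PW.ck 128 128 36 165 (by decide +kernel)

theorem c128_1 : H182.Cw.PW 4 3 3 D cls mv 128 165 202 := H182.Cw.PW.ck 128 165 36 202 (by decide +kernel)

theorem c128_2 : H182.Cw.PW 4 3 3 D cls mv 128 202 240 := H182.Cw.PW.ck 128 202 37 240 (by decide +kernel)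

theorem c128 : CW 4 3 3 D cls mv 128 (Nat.add 128 1) := (((c128_0).trans c128_1).trans c128_2).cw hnk (by decide +kernel)

theorem cm128 : CW 4 3 3 D cls mv 128 129 := c128

end Vale.Agent.P355.H182K
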