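import Vale.Agent.P355.H182K.D
import Vale.Agent.P355.H182.Cw

namespace Vale.Agent.P355.H182K

open Vale.Agent.P355 Vale.Agent.P355.H147 Vale.Agent.P355.H998.E Vale.Agent.P355.H41.F1

theorem c129_0 : H182.Cw.PW 4 3 3 D cls mv 129 129 166 := H182.Cw.PW.ck 129 129 36 166 (by decide +kernel)

theorem c129_1 : H182.Cw.PW 4 3 3 D cls mv 129 166 203 := H182.Cw.PW.ck 129 166 36 203 (by decide +kernel)

theorem c129_2 : H182.Cw.PW 4 3 3 D cls mv 129 203 240 := H182.Cw.PW.ck 129 203 36 240 (by decide +kernel)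

theorem c129 : CW 4 3 3 D cls mv 129 (Nat.add 129 1) := (((c129_0).trans c129_1).trans c129_2).cw hnk (by decide +kernel)

theorem cm129 : CW 4 3 3 D cls mv 129 130 := c129

end Vale.Agent.P355.H182K
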