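import Vale.Agent.P355.H182K.D
import Vale.Agent.P355.H182.Cw

namespace Vale.Agent.P355.H182K

open Vale.Agent.P355 Vale.Agent.P355.H147 Vale.Agent.P355.H998.E Vale.Agent.P355.H41.F1

theorem c13_0 : H182.Cw.PW 4 3 3 D cls mv 13 13 50 := H182.Cw.PW.ck 13 13 36 50 (by decide +kernel)

theorem c13_1 : H182.Cw.PW 4 3 3 D cls mv 13 50 88 := H182.Cw.PW.ck 13 50 37 88 (by decide +kernel)

theorem c13_2 : H182.Cw.PW 4 3 3 D cls mv 13 88 126 := H182.Cw.PW.ck 13 88 37 126 (by decide +kernel)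

theorem c13_3 : H182.Cw.PW 4 3 3 D cls mv 13 126 164 := H182.Cw.PW.ck 13 126 37 164 (by decide +kernel)

theorem c13_4 : H182.Cw.PW 4 3 3 D cls mv 13 164 202 := H182.Cw.PW.ck 13 164 37 202 (by decide +kernel)

theorem c13_5 : H182.Cw.PW 4 3 3 D cls mv 13 202 240 := H182.Cw.PW.ck 13 202 37 240 (by decide +kernel)

theorem c13 : CW 4 3 3 D cls mv 13 (Nat.add 13 1) := ((((((c13_0).trans c13_1).trans c13_2).trans c13_3).trans c13_4).trans c13_5).cw hnk (by decide +kernel)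

theorem cm13 : CW 4 3 3 D cls mv 13 14 := c13

end Vale.Agent.P355.H182K
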