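import Vale.Agent.P355.H182K.D
import Vale.Agent.P355.H182.Cw

namespace Vale.Agent.P355.H182K

open Vale.Agent.P355 Vale.Agent.P355.H147 Vale.Agent.P355.H998.E Vale.Agent.P355.H41.F1

theorem c130_0 : H182.Cw.PW 4 3 3 D cls mv 130 130 166 := H182.Cw.PW.ck 130 130 35 166 (by decide +kernel)

theorem c130_1 : H182.Cw.PW 4 3 3 D cls mv 130 166 203 := H182.Cw.PW.ck 130 166 36 203 (by decide +kernel)

theorem c130_2 : H182.Cw.PW 4 3 3 D cls mv 130 203 240 := H182.Cw.PW.ck 130 203 36 240 (by decide +kernel)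

theorem c130 : CW 4 3 3 D cls mv 130 (Nat.add 130 1) := (((c130_0).trans c130_1).trans c130_2).cw hnk (by decide +kernel)

theorem cm130 : CW 4 3 3 D cls mv 130 131 := c130

end Vale.Agent.P355.H182K
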