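import Vale.Agent.P355.H182K.D
import Vale.Agent.P355.H182.Cw

namespace Vale.Agent.P355.H182K

open Vale.Agent.P355 Vale.Agent.P355.H147 Vale.Agent.P355.H998.E Vale.Agent.P355.H41.F1

theorem c131_0 : H182.Cw.PW 4 3 3 D cls mv 131 131 167 := H182.Cw.PW.ck 131 131 35 167 (by decide +kernel)

theorem c131_1 : H182.Cw.PW 4 3 3 D cls mv 131 167 203 := H182.Cw.PW.ck 131 167 35 203 (by decide +kernel)

theorem c131_2 : H182.Cw.PW 4 3 3 D cls mv 131 203 240 := H182.Cw.PW.ck 131 203 36 240 (by decide +kernel)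

theorem c131 : CW 4 3 3 D cls mv 131 (Nat.add 131 1) := (((c131_0).trans c131_1).trans c131_2).cw hnk (by decide +kernel)

theorem cm131 : CW 4 3 3 D cls mv 131 132 := c131

end Vale.Agent.P355.H182K
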