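import Vale.Agent.P355.H182K.D
import Vale.Agent.P355.H182.Cw

namespace Vale.Agent.P355.H182K

open Vale.Agent.P355 Vale.Agent.P355.H147 Vale.Agent.P355.H998.E Vale.Agent.P355.H41.F1

theorem c132_0 : H182.Cw.PW 4 3 3 D cls mv 132 132 168 := H182.Cw.PW.ck 132 132 35 168 (by decide +kernel)

theorem c132_1 : H182.Cw.PW 4 3 3 D cls mv 132 168 204 := H182.Cw.PW.ck 132 168 35 204 (by decide +kernel)

theorem c132_2 : H182.Cw.PW 4 3 3 D cls mv 132 204 240 := H182.Cw.PW.ck 132 204 35 240 (by decide +kernel)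

theorem c132 : CW 4 3 3 D cls mv 132 (Nat.add 132 1) := (((c132_0).trans c132_1).trans c132_2).cw hnk (by decide +kernel)

theorem cm132 : CW 4 3 3 D cls mv 132 133 := c132

end Vale.Agent.P355.H182K
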