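import Vale.Agent.P355.H182K.D
import Vale.Agent.P355.H182.Cw

namespace Vale.Agent.P355.H182K

open Vale.Agent.P355 Vale.Agent.P355.H147 Vale.Agent.P355.H998.E Vale.Agent.P355.H41.F1

theorem c133_0 : H182.Cw.PW 4 3 3 D cls mv 133 133 168 := H182.Cw.PW.ck 133 133 34 168 (by decide +kernel)

theorem c133_1 : H182.Cw.PW 4 3 3 D cls mv 133 168 204 := H182.Cw.PW.ck 133 168 35 204 (by decide +kernel)

theorem c133_2 : H182.Cw.PW 4 3 3 D cls mv 133 204 240 := H182.Cw.PW.ck 133 204 35 240 (by decide +kernel)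

theorem c133 : CW 4 3 3 D cls mv 133 (Nat.add 133 1) := (((c133_0).trans c133_1).trans c133_2).cw hnk (by decide +kernel)

theorem cm133 : CW 4 3 3 D cls mv 133 134 := c133

end Vale.Agent.P355.H182K
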