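import Vale.Agent.P355.H182K.D
import Vale.Agent.P355.H182.Cw

namespace Vale.Agent.P355.H182K

open Vale.Agent.P355 Vale.Agent.P355.H147 Vale.Agent.P355.H998.E Vale.Agent.P355.H41.F1

theorem c135_0 : H182.Cw.PW 4 3 3 D cls mv 135 135 170 := H182.Cw.PW.ck 135 135 34 170 (by decide +kernel)

theorem c135_1 : H182.Cw.PW 4 3 3 D cls mv 135 170 205 := H182.Cw.PW.ck 135 170 34 205 (by decide +kernel)

theorem c135_2 : H182.Cw.PW 4 3 3 D cls mv 135 205 240 := H182.Cw.PW.ck 135 205 34 240 (by decide +kernel)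

theorem c135 : CW 4 3 3 D cls mv 135 (Nat.add 135 1) := (((c135_0).trans c135_1).trans c135_2).cw hnk (by decide +kernel)

theorem cm135 : CW 4 3 3 D cls mv 135 136 := c135

end Vale.Agent.P355.H182K
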