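import Vale.Agent.P355.H182K.D
import Vale.Agent.P355.H182.Cw

namespace Vale.Agent.P355.H182K

open Vale.Agent.P355 Vale.Agent.P355.H147 Vale.Agent.P355.H998.E Vale.Agent.P355.H41.F1

theorem c136_0 : H182.Cw.PW 4 3 3 D cls mv 136 136 170 := H182.Cw.PW.ck 136 136 33 170 (by decide +kernel)

theorem c136_1 : H182.Cw.PW 4 3 3 D cls mv 136 170 205 := H182.Cw.PW.ck 136 170 34 205 (by decide +kernel)

theorem c136_2 : H182.Cw.PW 4 3 3 D cls mv 136 205 240 := H182.Cw.PW.ck 136 205 34 240 (by decide +kernel)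

theorem c136 : CW 4 3 3 D cls mv 136 (Nat.add 136 1) := (((c136_0).trans c136_1).trans c136_2).cw hnk (by decide +kernel)

theorem cm136 : CW 4 3 3 D cls mv 136 137 := c136

end Vale.Agent.P355.H182K
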