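import Vale.Agent.P355.H182K.D
import Vale.Agent.P355.H182.Cw

namespace Vale.Agent.P355.H182K

open Vale.Agent.P355 Vale.Agent.P355.H147 Vale.Agent.P355.H998.E Vale.Agent.P355.H41.F1

theorem c137_0 : H182.Cw.PW 4 3 3 D cls mv 137 137 171 := H182.Cw.PW.ck 137 137 33 171 (by decide +kernel)

theorem c137_1 : H182.Cw.PW 4 3 3 D cls mv 137 171 205 := H182.Cw.PW.ck 137 171 33 205 (by decide +kernel)

theorem c137_2 : H182.Cw.PW 4 3 3 D cls mv 137 205 240 := H182.Cw.PW.ck 137 205 34 240 (by decide +kernel)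

theorem c137 : CW 4 3 3 D cls mv 137 (Nat.add 137 1) := (((c137_0).trans c137_1).trans c137_2).cw hnk (by decide +kernel)

theorem cm137 : CW 4 3 3 D cls mv 137 138 := c137

end Vale.Agent.P355.H182K
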