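import Vale.Agent.P355.H182K.D
import Vale.Agent.P355.H182.Cw

namespace Vale.Agent.P355.H182K

open Vale.Agent.P355 Vale.Agent.P355.H147 Vale.Agent.P355.H998.E Vale.Agent.P355.H41.F1

theorem c138_0 : H182.Cw.PW 4 3 3 D cls mv 138 138 172 := H182.Cw.PW.ck 138 138 33 172 (by decide +kernel)

theorem c138_1 : H182.Cw.PW 4 3 3 D cls mv 138 172 206 := H182.Cw.PW.ck 138 172 33 206 (by decide +kernel)

theorem c138_2 : H182.Cw.PW 4 3 3 D cls mv 138 206 240 := H182.Cw.PW.ck 138 206 33 240 (by decide +kernel)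

theorem c138 : CW 4 3 3 D cls mv 138 (Nat.add 138 1) := (((c138_0).trans c138_1).trans c138_2).cw hnk (by decide +kernel)

theorem cm138 : CW 4 3 3 D cls mv 138 139 := c138

end Vale.Agent.P355.H182K
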