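import Vale.Agent.P355.H182K.D
import Vale.Agent.P355.H182.Cw

namespace Vale.Agent.P355.H182K

open Vale.Agent.P355 Vale.Agent.P355.H147 Vale.Agent.P355.H998.E Vale.Agent.P355.H41.F1

theorem c139_0 : H182.Cw.PW 4 3 3 D cls mv 139 139 172 := H182.Cw.PW.ck 139 139 32 172 (by decide +kernel)

theorem c139_1 : H182.Cw.PW 4 3 3 D cls mv 139 172 206 := H182.Cw.PW.ck 139 172 33 206 (by decide +kernel)

theorem c139_2 : H182.Cw.PW 4 3 3 D cls mv 139 206 240 := H182.Cw.PW.ck 139 206 33 240 (by decide +kernel)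

theorem c139 : CW 4 3 3 D cls mv 139 (Nat.add 139 1) := (((c139_0).trans c139_1).trans c139_2).cw hnk (by decide +kernel)

theorem cm139 : CW 4 3 3 D cls mv 139 140 := c139

end Vale.Agent.P355.H182K
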