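import Vale.Agent.P355.H182K.D
import Vale.Agent.P355.H182.Cw

namespace Vale.Agent.P355.H182K

open Vale.Agent.P355 Vale.Agent.P355.H147 Vale.Agent.P355.H998.E Vale.Agent.P355.H41.F1

theorem c14_0 : H182.Cw.PW 4 3 3 D cls mv 14 14 51 := H182.Cw.PW.ck 14 14 36 51 (by decide +kernel)

theorem c14_1 : H182.Cw.PW 4 3 3 D cls mv 14 51 89 := H182.Cw.PW.ck 14 51 37 89 (by decide +kernel)

theorem c14_2 : H182.Cw.PW 4 3 3 D cls mv 14 89 127 := H182.Cw.PW.ck 14 89 37 127 (by decide +kernel)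

theorem c14_3 : H182.Cw.PW 4 3 3 D cls mv 14 127 164 := H182.Cw.PW.ck 14 127 36 164 (by decide +kernel)

theorem c14_4 : H182.Cw.PW 4 3 3 D cls mv 14 164 202 := H182.Cw.PW.ck 14 164 37 202 (by decide +kernel)

theorem c14_5 : H182.Cw.PW 4 3 3 D cls mv 14 202 240 := H182.Cw.PW.ck 14 202 37 240 (by decide +kernel)

theorem c14 : CW 4 3 3 D cls mv 14 (Nat.add 14 1) := ((((((c14_0).trans c14_1).trans c14_2).trans c14_3).trans c14_4).trans c14_5).cw hnk (by decide +kernel)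

theorem cm14 : CW 4 3 3 D cls mv 14 15 := c14

end Vale.Agent.P355.H182K
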