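import Vale.Agent.P355.H182K.D
import Vale.Agent.P355.H182.Cw

namespace Vale.Agent.P355.H182K

open Vale.Agent.P355 Vale.Agent.P355.H147 Vale.Agent.P355.H998.E Vale.Agent.P355.H41.F1

theorem c142_0 : H182.Cw.PW 4 3 3 D cls mv 142 142 174 := H182.Cw.PW.ck 142 142 31 174 (by decide +kernel)

theorem c142_1 : H182.Cw.PW 4 3 3 D cls mv 142 174 207 := H182.Cw.PW.ck 142 174 32 207 (by decide +kernel)

theorem c142_2 : H182.Cw.PW 4 3 3 D cls mv 142 207 240 := H182.Cw.PW.ck 142 207 32 240 (by decide +kernel)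

theorem c142 : CW 4 3 3 D cls mv 142 (Nat.add 142 1) := (((c142_0).trans c142_1).trans c142_2).cw hnk (by decide +kernel)

theorem cm142 : CW 4 3 3 D cls mv 142 143 := c142

end Vale.Agent.P355.H182K
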