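import Vale.Agent.P355.H182K.D
import Vale.Agent.P355.H182.Cw

namespace Vale.Agent.P355.H182K

open Vale.Agent.P355 Vale.Agent.P355.H147 Vale.Agent.P355.H998.E Vale.Agent.P355.H41.F1

theorem c143_0 : H182.Cw.PW 4 3 3 D cls mv 143 143 175 := H182.Cw.PW.ck 143 143 31 175 (by decide +kernel)

theorem c143_1 : H182.Cw.PW 4 3 3 D cls mv 143 175 207 := H182.Cw.PW.ck 143 175 31 207 (by decide +kernel)

theorem c143_2 : H182.Cw.PW 4 3 3 D cls mv 143 207 240 := H182.Cw.PW.ck 143 207 32 240 (by decide +kernel)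

theorem c143 : CW 4 3 3 D cls mv 143 (Nat.add 143 1) := (((c143_0).trans c143_1).trans c143_2).cw hnk (by decide +kernel)

theorem cm143 : CW 4 3 3 D cls mv 143 144 := c143

end Vale.Agent.P355.H182K
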