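import Vale.Agent.P355.H182K.D
import Vale.Agent.P355.H182.Cw

namespace Vale.Agent.P355.H182K

open Vale.Agent.P355 Vale.Agent.P355.H147 Vale.Agent.P355.H998.E Vale.Agent.P355.H41.F1

theorem c144_0 : H182.Cw.PW 4 3 3 D cls mv 144 144 176 := H182.Cw.PW.ck 144 144 31 176 (by decide +kernel)

theorem c144_1 : H182.Cw.PW 4 3 3 D cls mv 144 176 208 := H182.Cw.PW.ck 144 176 31 208 (by decide +kernel)

theorem c144_2 : H182.Cw.PW 4 3 3 D cls mv 144 208 240 := H182.Cw.PW.ck 144 208 31 240 (by decide +kernel)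

theorem c144 : CW 4 3 3 D cls mv 144 (Nat.add 144 1) := (((c144_0).trans c144_1).trans c144_2).cw hnk (by decide +kernel)

theorem cm144 : CW 4 3 3 D cls mv 144 145 := c144

end Vale.Agent.P355.H182K
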