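import Vale.Agent.P355.H182K.D
import Vale.Agent.P355.H182.Cw

namespace Vale.Agent.P355.H182K

open Vale.Agent.P355 Vale.Agent.P355.H147 Vale.Agent.P355.H998.E Vale.Agent.P355.H41.F1

theorem c146_0 : H182.Cw.PW 4 3 3 D cls mv 146 146 177 := H182.Cw.PW.ck 146 146 30 177 (by decide +kernel)

theorem c146_1 : H182.Cw.PW 4 3 3 D cls mv 146 177 208 := H182.Cw.PW.ck 146 177 30 208 (by decide +kernel)

theorem c146_2 : H182.Cw.PW 4 3 3 D cls mv 146 208 240 := H182.Cw.PW.ck 146 208 31 240 (by decide +kernel)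

theorem c146 : CW 4 3 3 D cls mv 146 (Nat.add 146 1) := (((c146_0).trans c146_1).trans c146_2).cw hnk (by decide +kernel)

theorem cm146 : CW 4 3 3 D cls mv 146 147 := c146

end Vale.Agent.P355.H182K
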