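import Vale.Agent.P355.H182K.D
import Vale.Agent.P355.H182.Cw

namespace Vale.Agent.P355.H182K

open Vale.Agent.P355 Vale.Agent.P355.H147 Vale.Agent.P355.H998.E Vale.Agent.P355.H41.F1

theorem c147_0 : H182.Cw.PW 4 3 3 D cls mv 147 147 178 := H182.Cw.PW.ck 147 147 30 178 (by decide +kernel)

theorem c147_1 : H182.Cw.PW 4 3 3 D cls mv 147 178 209 := H182.Cw.PW.ck 147 178 30 209 (by decide +kernel)

theorem c147_2 : H182.Cw.PW 4 3 3 D cls mv 147 209 240 := H182.Cw.PW.ck 147 209 30 240 (by decide +kernel)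

theorem c147 : CW 4 3 3 D cls mv 147 (Nat.add 147 1) := (((c147_0).trans c147_1).trans c147_2).cw hnk (by decide +kernel)

theorem cm147 : CW 4 3 3 D cls mv 147 148 := c147

end Vale.Agent.P355.H182K
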