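import Vale.Agent.P355.H182K.D
import Vale.Agent.P355.H182.Cw

namespace Vale.Agent.P355.H182K

open Vale.Agent.P355 Vale.Agent.P355.H147 Vale.Agent.P355.H998.E Vale.Agent.P355.H41.F1

theorem c148_0 : H182.Cw.PW 4 3 3 D cls mv 148 148 178 := H182.Cw.PW.ck 148 148 29 178 (by decide +kernel)

theorem c148_1 : H182.Cw.PW 4 3 3 D cls mv 148 178 209 := H182.Cw.PW.ck 148 178 30 209 (by decide +kernel)

theorem c148_2 : H182.Cw.PW 4 3 3 D cls mv 148 209 240 := H182.Cw.PW.ck 148 209 30 240 (by decide +kernel)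

theorem c148 : CW 4 3 3 D cls mv 148 (Nat.add 148 1) := (((c148_0).trans c148_1).trans c148_2).cw hnk (by decide +kernel)

theorem cm148 : CW 4 3 3 D cls mv 148 149 := c148

end Vale.Agent.P355.H182K
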