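import Vale.Agent.P355.H182K.D
import Vale.Agent.P355.H182.Cw

namespace Vale.Agent.P355.H182K

open Vale.Agent.P355 Vale.Agent.P355.H147 Vale.Agent.P355.H998.E Vale.Agent.P355.H41.F1

theorem c149_0 : H182.Cw.PW 4 3 3 D cls mv 149 149 179 := H182.Cw.PW.ck 149 149 29 179 (by decide +kernel)

theorem c149_1 : H182.Cw.PW 4 3 3 D cls mv 149 179 209 := H182.Cw.PW.ck 149 179 29 209 (by decide +kernel)

theorem c149_2 : H182.Cw.PW 4 3 3 D cls mv 149 209 240 := H182.Cw.PW.ck 149 209 30 240 (by decide +kernel)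

theorem c149 : CW 4 3 3 D cls mv 149 (Nat.add 149 1) := (((c149_0).trans c149_1).trans c149_2).cw hnk (by decide +kernel)

theorem cm149 : CW 4 3 3 D cls mv 149 150 := c149

end Vale.Agent.P355.H182K
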