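import Vale.Agent.P355.H182K.D
import Vale.Agent.P355.H182.Cw

namespace Vale.Agent.P355.H182K

open Vale.Agent.P355 Vale.Agent.P355.H147 Vale.Agent.P355.H998.E Vale.Agent.P355.H41.F1

theorem c15_0 : H182.Cw.PW 4 3 3 D cls mv 15 15 52 := H182.Cw.PW.ck 15 15 36 52 (by decide +kernel)

theorem c15_1 : H182.Cw.PW 4 3 3 D cls mv 15 52 90 := H182.Cw.PW.ck 15 52 37 90 (by decide +kernel)

theorem c15_2 : H182.Cw.PW 4 3 3 D cls mv 15 90 127 := H182.Cw.PW.ck 15 90 36 127 (by decide +kernel)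

theorem c15_3 : H182.Cw.PW 4 3 3 D cls mv 15 127 165 := H182.Cw.PW.ck 15 127 37 165 (by decide +kernel)

theorem c15_4 : H182.Cw.PW 4 3 3 D cls mv 15 165 202 := H182.Cw.PW.ck 15 165 36 202 (by decide +kernel)

theorem c15_5 : H182.Cw.PW 4 3 3 D cls mv 15 202 240 := H182.Cw.PW.ck 15 202 37 240 (by decide +kernel)

theorem c15 : CW 4 3 3 D cls mv 15 (Nat.add 15 1) := ((((((c15_0).trans c15_1).trans c15_2).trans c15_3).trans c15_4).trans c15_5).cw hnk (by decide +kernel)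

theorem cm15 : CW 4 3 3 D cls mv 15 16 := c15

end Vale.Agent.P355.H182K
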