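import Vale.Agent.P355.H182K.D
import Vale.Agent.P355.H182.Cw

namespace Vale.Agent.P355.H182K

open Vale.Agent.P355 Vale.Agent.P355.H147 Vale.Agent.P355.H998.E Vale.Agent.P355.H41.F1

theorem c151_0 : H182.Cw.PW 4 3 3 D cls mv 151 151 180 := H182.Cw.PW.ck 151 151 28 180 (by decide +kernel)

theorem c151_1 : H182.Cw.PW 4 3 3 D cls mv 151 180 210 := H182.Cw.PW.ck 151 180 29 210 (by decide +kernel)

theorem c151_2 : H182.Cw.PW 4 3 3 D cls mv 151 210 240 := H182.Cw.PW.ck 151 210 29 240 (by decide +kernel)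

theorem c151 : CW 4 3 3 D cls mv 151 (Nat.add 151 1) := (((c151_0).trans c151_1).trans c151_2).cw hnk (by decide +kernel)

theorem cm151 : CW 4 3 3 D cls mv 151 152 := c151

end Vale.Agent.P355.H182K
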