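import Vale.Agent.P355.H182K.D
import Vale.Agent.P355.H182.Cw

namespace Vale.Agent.P355.H182K

open Vale.Agent.P355 Vale.Agent.P355.H147 Vale.Agent.P355.H998.E Vale.Agent.P355.H41.F1

theorem c152_0 : H182.Cw.PW 4 3 3 D cls mv 152 152 181 := H182.Cw.PW.ck 152 152 28 181 (by decide +kernel)

theorem c152_1 : H182.Cw.PW 4 3 3 D cls mv 152 181 210 := H182.Cw.PW.ck 152 181 28 210 (by decide +kernel)

theorem c152_2 : H182.Cw.PW 4 3 3 D cls mv 152 210 240 := H182.Cw.PW.ck 152 210 29 240 (by decide +kernel)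

theorem c152 : CW 4 3 3 D cls mv 152 (Nat.add 152 1) := (((c152_0).trans c152_1).trans c152_2).cw hnk (by decide +kernel)

theorem cm152 : CW 4 3 3 D cls mv 152 153 := c152

end Vale.Agent.P355.H182K
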