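import Vale.Agent.P355.H182K.D
import Vale.Agent.P355.H182.Cw

namespace Vale.Agent.P355.H182K

open Vale.Agent.P355 Vale.Agent.P355.H147 Vale.Agent.P355.H998.E Vale.Agent.P355.H41.F1

theorem c153_0 : H182.Cw.PW 4 3 3 D cls mv 153 153 182 := H182.Cw.PW.ck 153 153 28 182 (by decide +kernel)

theorem c153_1 : H182.Cw.PW 4 3 3 D cls mv 153 182 211 := H182.Cw.PW.ck 153 182 28 211 (by decide +kernel)

theorem c153_2 : H182.Cw.PW 4 3 3 D cls mv 153 211 240 := H182.Cw.PW.ck 153 211 28 240 (by decide +kernel)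

theorem c153 : CW 4 3 3 D cls mv 153 (Nat.add 153 1) := (((c153_0).trans c153_1).trans c153_2).cw hnk (by decide +kernel)

theorem cm153 : CW 4 3 3 D cls mv 153 154 := c153

end Vale.Agent.P355.H182K
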