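import Vale.Agent.P355.H182K.D
import Vale.Agent.P355.H182.Cw

namespace Vale.Agent.P355.H182K

open Vale.Agent.P355 Vale.Agent.P355.H147 Vale.Agent.P355.H998.E Vale.Agent.P355.H41.F1

theorem c154_0 : H182.Cw.PW 4 3 3 D cls mv 154 154 182 := H182.Cw.PW.ck 154 154 27 182 (by decide +kernel)

theorem c154_1 : H182.Cw.PW 4 3 3 D cls mv 154 182 211 := H182.Cw.PW.ck 154 182 28 211 (by decide +kernel)

theorem c154_2 : H182.Cw.PW 4 3 3 D cls mv 154 211 240 := H182.Cw.PW.ck 154 211 28 240 (by decide +kernel)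

theorem c154 : CW 4 3 3 D cls mv 154 (Nat.add 154 1) := (((c154_0).trans c154_1).trans c154_2).cw hnk (by decide +kernel)

theorem cm154 : CW 4 3 3 D cls mv 154 155 := c154

end Vale.Agent.P355.H182K
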