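import Vale.Agent.P355.H182K.D
import Vale.Agent.P355.H182.Cw

namespace Vale.Agent.P355.H182K

open Vale.Agent.P355 Vale.Agent.P355.H147 Vale.Agent.P355.H998.E Vale.Agent.P355.H41.F1

theorem c155_0 : H182.Cw.PW 4 3 3 D cls mv 155 155 183 := H182.Cw.PW.ck 155 155 27 183 (by decide +kernel)

theorem c155_1 : H182.Cw.PW 4 3 3 D cls mv 155 183 211 := H182.Cw.PW.ck 155 183 27 211 (by decide +kernel)

theorem c155_2 : H182.Cw.PW 4 3 3 D cls mv 155 211 240 := H182.Cw.PW.ck 155 211 28 240 (by decide +kernel)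

theorem c155 : CW 4 3 3 D cls mv 155 (Nat.add 155 1) := (((c155_0).trans c155_1).trans c155_2).cw hnk (by decide +kernel)

theorem cm155 : CW 4 3 3 D cls mv 155 156 := c155

end Vale.Agent.P355.H182K
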