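import Vale.Agent.P355.H182K.D
import Vale.Agent.P355.H182.Cw

namespace Vale.Agent.P355.H182K

open Vale.Agent.P355 Vale.Agent.P355.H147 Vale.Agent.P355.H998.E Vale.Agent.P355.H41.F1

theorem c156_0 : H182.Cw.PW 4 3 3 D cls mv 156 156 184 := H182.Cw.PW.ck 156 156 27 184 (by decide +kernel)

theorem c156_1 : H182.Cw.PW 4 3 3 D cls mv 156 184 212 := H182.Cw.PW.ck 156 184 27 212 (by decide +kernel)

theorem c156_2 : H182.Cw.PW 4 3 3 D cls mv 156 212 240 := H182.Cw.PW.ck 156 212 27 240 (by decide +kernel)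

theorem c156 : CW 4 3 3 D cls mv 156 (Nat.add 156 1) := (((c156_0).trans c156_1).trans c156_2).cw hnk (by decide +kernel)

theorem cm156 : CW 4 3 3 D cls mv 156 157 := c156

end Vale.Agent.P355.H182K
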