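import Vale.Agent.P355.H182K.D
import Vale.Agent.P355.H182.Cw

namespace Vale.Agent.P355.H182K

open Vale.Agent.P355 Vale.Agent.P355.H147 Vale.Agent.P355.H998.E Vale.Agent.P355.H41.F1

theorem c157_0 : H182.Cw.PW 4 3 3 D cls mv 157 157 198 := H182.Cw.PW.ck 157 157 40 198 (by decide +kernel)

theorem c157_1 : H182.Cw.PW 4 3 3 D cls mv 157 198 240 := H182.Cw.PW.ck 157 198 41 240 (by decide +kernel)

theorem c157 : CW 4 3 3 D cls mv 157 (Nat.add 157 1) := ((c157_0).trans c157_1).cw hnk (by decide +kernel)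

theorem cm157 : CW 4 3 3 D cls mv 157 158 := c157

end Vale.Agent.P355.H182K
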