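import Vale.Agent.P355.H182K.D
import Vale.Agent.P355.H182.Cw

namespace Vale.Agent.P355.H182K

open Vale.Agent.P355 Vale.Agent.P355.H147 Vale.Agent.P355.H998.E Vale.Agent.P355.H41.F1

theorem c16_0 : H182.Cw.PW 4 3 3 D cls mv 16 16 53 := H182.Cw.PW.ck 16 16 36 53 (by decide +kernel)

theorem c16_1 : H182.Cw.PW 4 3 3 D cls mv 16 53 90 := H182.Cw.PW.ck 16 53 36 90 (by decide +kernel)

theorem c16_2 : H182.Cw.PW 4 3 3 D cls mv 16 90 128 := H182.Cw.PW.ck 16 90 37 128 (by decide +kernel)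

theorem c16_3 : H182.Cw.PW 4 3 3 D cls mv 16 128 165 := H182.Cw.PW.ck 16 128 36 165 (by decide +kernel)

theorem c16_4 : H182.Cw.PW 4 3 3 D cls mv 16 165 202 := H182.Cw.PW.ck 16 165 36 202 (by decide +kernel)

theorem c16_5 : H182.Cw.PW 4 3 3 D cls mv 16 202 240 := H182.Cw.PW.ck 16 202 37 240 (by decide +kernel)

theorem c16 : CW 4 3 3 D cls mv 16 (Nat.add 16 1) := ((((((c16_0).trans c16_1).trans c16_2).trans c16_3).trans c16_4).trans c16_5).cw hnk (by decide +kernel)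

theorem cm16 : CW 4 3 3 D cls mv 16 17 := c16

end Vale.Agent.P355.H182K
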