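import Vale.Agent.P355.H182K.D
import Vale.Agent.P355.H182.Cw

namespace Vale.Agent.P355.H182K

open Vale.Agent.P355 Vale.Agent.P355.H147 Vale.Agent.P355.H998.E Vale.Agent.P355.H41.F1

theorem c160_0 : H182.Cw.PW 4 3 3 D cls mv 160 160 200 := H182.Cw.PW.ck 160 160 39 200 (by decide +kernel)

theorem c160_1 : H182.Cw.PW 4 3 3 D cls mv 160 200 240 := H182.Cw.PW.ck 160 200 39 240 (by decide +kernel)

theorem c160 : CW 4 3 3 D cls mv 160 (Nat.add 160 1) := ((c160_0).trans c160_1).cw hnk (by decide +kernel)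

theorem cm160 : CW 4 3 3 D cls mv 160 161 := c160

end Vale.Agent.P355.H182K
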