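import Vale.Agent.P355.H182K.D
import Vale.Agent.P355.H182.Cw

namespace Vale.Agent.P355.H182K

open Vale.Agent.P355 Vale.Agent.P355.H147 Vale.Agent.P355.H998.E Vale.Agent.P355.H41.F1

theorem c162_0 : H182.Cw.PW 4 3 3 D cls mv 162 162 201 := H182.Cw.PW.ck 162 162 38 201 (by decide +kernel)

theorem c162_1 : H182.Cw.PW 4 3 3 D cls mv 162 201 240 := H182.Cw.PW.ck 162 201 38 240 (by decide +kernel)

theorem c162 : CW 4 3 3 D cls mv 162 (Nat.add 162 1) := ((c162_0).trans c162_1).cw hnk (by decide +kernel)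

theorem cm162 : CW 4 3 3 D cls mv 162 163 := c162

end Vale.Agent.P355.H182K
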