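import Vale.Agent.P355.H182K.D
import Vale.Agent.P355.H182.Cw

namespace Vale.Agent.P355.H182K

open Vale.Agent.P355 Vale.Agent.P355.H147 Vale.Agent.P355.H998.E Vale.Agent.P355.H41.F1

theorem c163_0 : H182.Cw.PW 4 3 3 D cls mv 163 163 201 := H182.Cw.PW.ck 163 163 37 201 (by decide +kernel)

theorem c163_1 : H182.Cw.PW 4 3 3 D cls mv 163 201 240 := H182.Cw.PW.ck 163 201 38 240 (by decide +kernel)

theorem c163 : CW 4 3 3 D cls mv 163 (Nat.add 163 1) := ((c163_0).trans c163_1).cw hnk (by decide +kernel)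

theorem cm163 : CW 4 3 3 D cls mv 163 164 := c163

end Vale.Agent.P355.H182K
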