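import Vale.Agent.P355.H182K.D
import Vale.Agent.P355.H182.Cw

namespace Vale.Agent.P355.H182K

open Vale.Agent.P355 Vale.Agent.P355.H147 Vale.Agent.P355.H998.E Vale.Agent.P355.H41.F1

theorem c164_0 : H182.Cw.PW 4 3 3 D cls mv 164 164 202 := H182.Cw.PW.ck 164 164 37 202 (by decide +kernel)

theorem c164_1 : H182.Cw.PW 4 3 3 D cls mv 164 202 240 := H182.Cw.PW.ck 164 202 37 240 (by decide +kernel)

theorem c164 : CW 4 3 3 D cls mv 164 (Nat.add 164 1) := ((c164_0).trans c164_1).cw hnk (by decide +kernel)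

theorem cm164 : CW 4 3 3 D cls mv 164 165 := c164

end Vale.Agent.P355.H182K
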