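import Vale.Agent.P355.H182K.D
import Vale.Agent.P355.H182.Cw

namespace Vale.Agent.P355.H182K

open Vale.Agent.P355 Vale.Agent.P355.H147 Vale.Agent.P355.H998.E Vale.Agent.P355.H41.F1

theorem c165_0 : H182.Cw.PW 4 3 3 D cls mv 165 165 202 := H182.Cw.PW.ck 165 165 36 202 (by decide +kernel)

theorem c165_1 : H182.Cw.PW 4 3 3 D cls mv 165 202 240 := H182.Cw.PW.ck 165 202 37 240 (by decide +kernel)

theorem c165 : CW 4 3 3 D cls mv 165 (Nat.add 165 1) := ((c165_0).trans c165_1).cw hnk (by decide +kernel)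

theorem cm165 : CW 4 3 3 D cls mv 165 166 := c165

end Vale.Agent.P355.H182K
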