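import Vale.Agent.P355.H182K.D
import Vale.Agent.P355.H182.Cw

namespace Vale.Agent.P355.H182K

open Vale.Agent.P355 Vale.Agent.P355.H147 Vale.Agent.P355.H998.E Vale.Agent.P355.H41.F1

theorem c169_0 : H182.Cw.PW 4 3 3 D cls mv 169 169 204 := H182.Cw.PW.ck 169 169 34 204 (by decide +kernel)

theorem c169_1 : H182.Cw.PW 4 3 3 D cls mv 169 204 240 := H182.Cw.PW.ck 169 204 35 240 (by decide +kernel)

theorem c169 : CW 4 3 3 D cls mv 169 (Nat.add 169 1) := ((c169_0).trans c169_1).cw hnk (by decide +kernel)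

theorem cm169 : CW 4 3 3 D cls mv 169 170 := c169

end Vale.Agent.P355.H182K
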