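import Vale.Agent.P355.H182K.D
import Vale.Agent.P355.H182.Cw

namespace Vale.Agent.P355.H182K

open Vale.Agent.P355 Vale.Agent.P355.H147 Vale.Agent.P355.H998.E Vale.Agent.P355.H41.F1

theorem c17_0 : H182.Cw.PW 4 3 3 D cls mv 17 17 54 := H182.Cw.PW.ck 17 17 36 54 (by decide +kernel)

theorem c17_1 : H182.Cw.PW 4 3 3 D cls mv 17 54 91 := H182.Cw.PW.ck 17 54 36 91 (by decide +kernel)

theorem c17_2 : H182.Cw.PW 4 3 3 D cls mv 17 91 128 := H182.Cw.PW.ck 17 91 36 128 (by decide +kernel)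

theorem c17_3 : H182.Cw.PW 4 3 3 D cls mv 17 128 165 := H182.Cw.PW.ck 17 128 36 165 (by decide +kernel)

theorem c17_4 : H182.Cw.PW 4 3 3 D cls mv 17 165 202 := H182.Cw.PW.ck 17 165 36 202 (by decide +kernel)

theorem c17_5 : H182.Cw.PW 4 3 3 D cls mv 17 202 240 := H182.Cw.PW.ck 17 202 37 240 (by decide +kernel)

theorem c17 : CW 4 3 3 D cls mv 17 (Nat.add 17 1) := ((((((c17_0).trans c17_1).trans c17_2).trans c17_3).trans c17_4).trans c17_5).cw hnk (by decide +kernel)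

theorem cm17 : CW 4 3 3 D cls mv 17 18 := c17

end Vale.Agent.P355.H182K
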