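import Vale.Agent.P355.H182K.D
import Vale.Agent.P355.H182.Cw

namespace Vale.Agent.P355.H182K

open Vale.Agent.P355 Vale.Agent.P355.H147 Vale.Agent.P355.H998.E Vale.Agent.P355.H41.F1

theorem c171_0 : H182.Cw.PW 4 3 3 D cls mv 171 171 205 := H182.Cw.PW.ck 171 171 33 205 (by decide +kernel)

theorem c171_1 : H182.Cw.PW 4 3 3 D cls mv 171 205 240 := H182.Cw.PW.ck 171 205 34 240 (by decide +kernel)

theorem c171 : CW 4 3 3 D cls mv 171 (Nat.add 171 1) := ((c171_0).trans c171_1).cw hnk (by decide +kernel)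

theorem c172_0 : H182.Cw.PW 4 3 3 D cls mv 172 172 206 := H182.Cw.PW.ck 172 172 33 206 (by decide +kernel)

theorem c172_1 : H182.Cw.PW 4 3 3 D cls mv 172 206 240 := H182.Cw.PW.ck 172 206 33 240 (by decide +kernel)

theorem c172 : CW 4 3 3 D cls mv 172 (Nat.add 172 1) := ((c172_0).trans c172_1).cw hnk (by decide +kernel)

theorem cm171 : CW 4 3 3 D cls mv 171 173 := (c171).trans (c172)

end Vale.Agent.P355.H182K
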