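import Vale.Agent.P355.H182K.D
import Vale.Agent.P355.H182.Cw

namespace Vale.Agent.P355.H182K

open Vale.Agent.P355 Vale.Agent.P355.H147 Vale.Agent.P355.H998.E Vale.Agent.P355.H41.F1

theorem c173_0 : H182.Cw.PW 4 3 3 D cls mv 173 173 206 := H182.Cw.PW.ck 173 173 32 206 (by decide +kernel)

theorem c173_1 : H182.Cw.PW 4 3 3 D cls mv 173 206 240 := H182.Cw.PW.ck 173 206 33 240 (by decide +kernel)

theorem c173 : CW 4 3 3 D cls mv 173 (Nat.add 173 1) := ((c173_0).trans c173_1).cw hnk (by decide +kernel)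

theorem c174_0 : H182.Cw.PW 4 3 3 D cls mv 174 174 207 := H182.Cw.PW.ck 174 174 32 207 (by decide +kernel)

theorem c174_1 : H182.Cw.PW 4 3 3 D cls mv 174 207 240 := H182.Cw.PW.ck 174 207 32 240 (by decide +kernel)

theorem c174 : CW 4 3 3 D cls mv 174 (Nat.add 174 1) := ((c174_0).trans c174_1).cw hnk (by decide +kernel)

theorem cm172 : CW 4 3 3 D cls mv 173 175 := (c173).trans (c174)

end Vale.Agent.P355.H182K
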