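import Vale.Agent.P355.H182K.D
import Vale.Agent.P355.H182.Cw

namespace Vale.Agent.P355.H182K

open Vale.Agent.P355 Vale.Agent.P355.H147 Vale.Agent.P355.H998.E Vale.Agent.P355.H41.F1

theorem c175_0 : H182.Cw.PW 4 3 3 D cls mv 175 175 207 := H182.Cw.PW.ck 175 175 31 207 (by decide +kernel)

theorem c175_1 : H182.Cw.PW 4 3 3 D cls mv 175 207 240 := H182.Cw.PW.ck 175 207 32 240 (by decide +kernel)

theorem c175 : CW 4 3 3 D cls mv 175 (Nat.add 175 1) := ((c175_0).trans c175_1).cw hnk (by decide +kernel)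

theorem c176_0 : H182.Cw.PW 4 3 3 D cls mv 176 176 208 := H182.Cw.PW.ck 176 176 31 208 (by decide +kernel)

theorem c176_1 : H182.Cw.PW 4 3 3 D cls mv 176 208 240 := H182.Cw.PW.ck 176 208 31 240 (by decide +kernel)

theorem c176 : CW 4 3 3 D cls mv 176 (Nat.add 176 1) := ((c176_0).trans c176_1).cw hnk (by decide +kernel)

theorem cm173 : CW 4 3 3 D cls mv 175 177 := (c175).trans (c176)

end Vale.Agent.P355.H182K
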