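import Vale.Agent.P355.H182K.D
import Vale.Agent.P355.H182.Cw

namespace Vale.Agent.P355.H182K

open Vale.Agent.P355 Vale.Agent.P355.H147 Vale.Agent.P355.H998.E Vale.Agent.P355.H41.F1

theorem c177_0 : H182.Cw.PW 4 3 3 D cls mv 177 177 208 := H182.Cw.PW.ck 177 177 30 208 (by decide +kernel)

theorem c177_1 : H182.Cw.PW 4 3 3 D cls mv 177 208 240 := H182.Cw.PW.ck 177 208 31 240 (by decide +kernel)

theorem c177 : CW 4 3 3 D cls mv 177 (Nat.add 177 1) := ((c177_0).trans c177_1).cw hnk (by decide +kernel)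

theorem c178_0 : H182.Cw.PW 4 3 3 D cls mv 178 178 209 := H182.Cw.PW.ck 178 178 30 209 (by decide +kernel)

theorem c178_1 : H182.Cw.PW 4 3 3 D cls mv 178 209 240 := H182.Cw.PW.ck 178 209 30 240 (by decide +kernel)

theorem c178 : CW 4 3 3 D cls mv 178 (Nat.add 178 1) := ((c178_0).trans c178_1).cw hnk (by decide +kernel)

theorem cm174 : CW 4 3 3 D cls mv 177 179 := (c177).trans (c178)

end Vale.Agent.P355.H182K
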