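import Vale.Agent.P355.H182K.D
import Vale.Agent.P355.H182.Cw

namespace Vale.Agent.P355.H182K

open Vale.Agent.P355 Vale.Agent.P355.H147 Vale.Agent.P355.H998.E Vale.Agent.P355.H41.F1

theorem c179_0 : H182.Cw.PW 4 3 3 D cls mv 179 179 209 := H182.Cw.PW.ck 179 179 29 209 (by decide +kernel)

theorem c179_1 : H182.Cw.PW 4 3 3 D cls mv 179 209 240 := H182.Cw.PW.ck 179 209 30 240 (by decide +kernel)

theorem c179 : CW 4 3 3 D cls mv 179 (Nat.add 179 1) := ((c179_0).trans c179_1).cw hnk (by decide +kernel)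

theorem c180_0 : H182.Cw.PW 4 3 3 D cls mv 180 180 210 := H182.Cw.PW.ck 180 180 29 210 (by decide +kernel)

theorem c180_1 : H182.Cw.PW 4 3 3 D cls mv 180 210 240 := H182.Cw.PW.ck 180 210 29 240 (by decide +kernel)

theorem c180 : CW 4 3 3 D cls mv 180 (Nat.add 180 1) := ((c180_0).trans c180_1).cw hnk (by decide +kernel)

theorem cm175 : CW 4 3 3 D cls mv 179 181 := (c179).trans (c180)

end Vale.Agent.P355.H182K
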