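import Vale.Agent.P355.H182K.D
import Vale.Agent.P355.H182.Cw

namespace Vale.Agent.P355.H182K

open Vale.Agent.P355 Vale.Agent.P355.H147 Vale.Agent.P355.H998.E Vale.Agent.P355.H41.F1

theorem c181_0 : H182.Cw.PW 4 3 3 D cls mv 181 181 210 := H182.Cw.PW.ck 181 181 28 210 (by decide +kernel)

theorem c181_1 : H182.Cw.PW 4 3 3 D cls mv 181 210 240 := H182.Cw.PW.ck 181 210 29 240 (by decide +kernel)

theorem c181 : CW 4 3 3 D cls mv 181 (Nat.add 181 1) := ((c181_0).trans c181_1).cw hnk (by decide +kernel)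

theorem c182_0 : H182.Cw.PW 4 3 3 D cls mv 182 182 211 := H182.Cw.PW.ck 182 182 28 211 (by decide +kernel)

theorem c182_1 : H182.Cw.PW 4 3 3 D cls mv 182 211 240 := H182.Cw.PW.ck 182 211 28 240 (by decide +kernel)

theorem c182 : CW 4 3 3 D cls mv 182 (Nat.add 182 1) := ((c182_0).trans c182_1).cw hnk (by decide +kernel)

theorem cm176 : CW 4 3 3 D cls mv 181 183 := (c181).trans (c182)

end Vale.Agent.P355.H182K
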