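import Vale.Agent.P355.H182K.D
import Vale.Agent.P355.H182.Cw

namespace Vale.Agent.P355.H182K

open Vale.Agent.P355 Vale.Agent.P355.H147 Vale.Agent.P355.H998.E Vale.Agent.P355.H41.F1

theorem c183_0 : H182.Cw.PW 4 3 3 D cls mv 183 183 211 := H182.Cw.PW.ck 183 183 27 211 (by decide +kernel)

theorem c183_1 : H182.Cw.PW 4 3 3 D cls mv 183 211 240 := H182.Cw.PW.ck 183 211 28 240 (by decide +kernel)

theorem c183 : CW 4 3 3 D cls mv 183 (Nat.add 183 1) := ((c183_0).trans c183_1).cw hnk (by decide +kernel)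

theorem c184_0 : H182.Cw.PW 4 3 3 D cls mv 184 184 212 := H182.Cw.PW.ck 184 184 27 212 (by decide +kernel)

theorem c184_1 : H182.Cw.PW 4 3 3 D cls mv 184 212 240 := H182.Cw.PW.ck 184 212 27 240 (by decide +kernel)

theorem c184 : CW 4 3 3 D cls mv 184 (Nat.add 184 1) := ((c184_0).trans c184_1).cw hnk (by decide +kernel)

theorem cm177 : CW 4 3 3 D cls mv 183 185 := (c183).trans (c184)

end Vale.Agent.P355.H182K
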