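import Vale.Agent.P355.H182K.D
import Vale.Agent.P355.H182.Cw

namespace Vale.Agent.P355.H182K

open Vale.Agent.P355 Vale.Agent.P355.H147 Vale.Agent.P355.H998.E Vale.Agent.P355.H41.F1

theorem c185_0 : H182.Cw.PW 4 3 3 D cls mv 185 185 212 := H182.Cw.PW.ck 185 185 26 212 (by decide +kernel)

theorem c185_1 : H182.Cw.PW 4 3 3 D cls mv 185 212 240 := H182.Cw.PW.ck 185 212 27 240 (by decide +kernel)

theorem c185 : CW 4 3 3 D cls mv 185 (Nat.add 185 1) := ((c185_0).trans c185_1).cw hnk (by decide +kernel)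

theorem c186_0 : H182.Cw.PW 4 3 3 D cls mv 186 186 213 := H182.Cw.PW.ck 186 186 26 213 (by decide +kernel)

theorem c186_1 : H182.Cw.PW 4 3 3 D cls mv 186 213 240 := H182.Cw.PW.ck 186 213 26 240 (by decide +kernel)

theorem c186 : CW 4 3 3 D cls mv 186 (Nat.add 186 1) := ((c186_0).trans c186_1).cw hnk (by decide +kernel)

theorem cm178 : CW 4 3 3 D cls mv 185 187 := (c185).trans (c186)

end Vale.Agent.P355.H182K
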