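import Vale.Agent.P355.H182K.D
import Vale.Agent.P355.H182.Cw

namespace Vale.Agent.P355.H182K

open Vale.Agent.P355 Vale.Agent.P355.H147 Vale.Agent.P355.H998.E Vale.Agent.P355.H41.F1

theorem c187_0 : H182.Cw.PW 4 3 3 D cls mv 187 187 213 := H182.Cw.PW.ck 187 187 25 213 (by decide +kernel)

theorem c187_1 : H182.Cw.PW 4 3 3 D cls mv 187 213 240 := H182.Cw.PW.ck 187 213 26 240 (by decide +kernel)

theorem c187 : CW 4 3 3 D cls mv 187 (Nat.add 187 1) := ((c187_0).trans c187_1).cw hnk (by decide +kernel)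

theorem c188_0 : H182.Cw.PW 4 3 3 D cls mv 188 188 214 := H182.Cw.PW.ck 188 188 25 214 (by decide +kernel)

theorem c188_1 : H182.Cw.PW 4 3 3 D cls mv 188 214 240 := H182.Cw.PW.ck 188 214 25 240 (by decide +kernel)

theorem c188 : CW 4 3 3 D cls mv 188 (Nat.add 188 1) := ((c188_0).trans c188_1).cw hnk (by decide +kernel)

theorem cm179 : CW 4 3 3 D cls mv 187 189 := (c187).trans (c188)

end Vale.Agent.P355.H182K
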