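import Vale.Agent.P355.H182K.D
import Vale.Agent.P355.H182.Cw

namespace Vale.Agent.P355.H182K

open Vale.Agent.P355 Vale.Agent.P355.H147 Vale.Agent.P355.H998.E Vale.Agent.P355.H41.F1

theorem c18_0 : H182.Cw.PW 4 3 3 D cls mv 18 18 55 := H182.Cw.PW.ck 18 18 36 55 (by decide +kernel)

theorem c18_1 : H182.Cw.PW 4 3 3 D cls mv 18 55 92 := H182.Cw.PW.ck 18 55 36 92 (by decide +kernel)

theorem c18_2 : H182.Cw.PW 4 3 3 D cls mv 18 92 129 := H182.Cw.PW.ck 18 92 36 129 (by decide +kernel)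

theorem c18_3 : H182.Cw.PW 4 3 3 D cls mv 18 129 166 := H182.Cw.PW.ck 18 129 36 166 (by decide +kernel)

theorem c18_4 : H182.Cw.PW 4 3 3 D cls mv 18 166 203 := H182.Cw.PW.ck 18 166 36 203 (by decide +kernel)

theorem c18_5 : H182.Cw.PW 4 3 3 D cls mv 18 203 240 := H182.Cw.PW.ck 18 203 36 240 (by decide +kernel)

theorem c18 : CW 4 3 3 D cls mv 18 (Nat.add 18 1) := ((((((c18_0).trans c18_1).trans c18_2).trans c18_3).trans c18_4).trans c18_5).cw hnk (by decide +kernel)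

theorem cm18 : CW 4 3 3 D cls mv 18 19 := c18

end Vale.Agent.P355.H182K
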