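import Vale.Agent.P355.H182K.D
import Vale.Agent.P355.H182.Cw

namespace Vale.Agent.P355.H182K

open Vale.Agent.P355 Vale.Agent.P355.H147 Vale.Agent.P355.H998.E Vale.Agent.P355.H41.F1

theorem c189_0 : H182.Cw.PW 4 3 3 D cls mv 189 189 214 := H182.Cw.PW.ck 189 189 24 214 (by decide +kernel)

theorem c189_1 : H182.Cw.PW 4 3 3 D cls mv 189 214 240 := H182.Cw.PW.ck 189 214 25 240 (by decide +kernel)

theorem c189 : CW 4 3 3 D cls mv 189 (Nat.add 189 1) := ((c189_0).trans c189_1).cw hnk (by decide +kernel)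

theorem c190_0 : H182.Cw.PW 4 3 3 D cls mv 190 190 215 := H182.Cw.PW.ck 190 190 24 215 (by decide +kernel)

theorem c190_1 : H182.Cw.PW 4 3 3 D cls mv 190 215 240 := H182.Cw.PW.ck 190 215 24 240 (by decide +kernel)

theorem c190 : CW 4 3 3 D cls mv 190 (Nat.add 190 1) := ((c190_0).trans c190_1).cw hnk (by decide +kernel)

theorem cm180 : CW 4 3 3 D cls mv 189 191 := (c189).trans (c190)

end Vale.Agent.P355.H182K
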