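import Vale.Agent.P355.H182K.D
import Vale.Agent.P355.H182.Cw

namespace Vale.Agent.P355.H182K

open Vale.Agent.P355 Vale.Agent.P355.H147 Vale.Agent.P355.H998.E Vale.Agent.P355.H41.F1

theorem c191_0 : H182.Cw.PW 4 3 3 D cls mv 191 191 215 := H182.Cw.PW.ck 191 191 23 215 (by decide +kernel)

theorem c191_1 : H182.Cw.PW 4 3 3 D cls mv 191 215 240 := H182.Cw.PW.ck 191 215 24 240 (by decide +kernel)

theorem c191 : CW 4 3 3 D cls mv 191 (Nat.add 191 1) := ((c191_0).trans c191_1).cw hnk (by decide +kernel)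

theorem c192_0 : H182.Cw.PW 4 3 3 D cls mv 192 192 216 := H182.Cw.PW.ck 192 192 23 216 (by decide +kernel)

theorem c192_1 : H182.Cw.PW 4 3 3 D cls mv 192 216 240 := H182.Cw.PW.ck 192 216 23 240 (by decide +kernel)

theorem c192 : CW 4 3 3 D cls mv 192 (Nat.add 192 1) := ((c192_0).trans c192_1).cw hnk (by decide +kernel)

theorem cm181 : CW 4 3 3 D cls mv 191 193 := (c191).trans (c192)

end Vale.Agent.P355.H182K
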