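import Vale.Agent.P355.H182K.D
import Vale.Agent.P355.H182.Cw

namespace Vale.Agent.P355.H182K

open Vale.Agent.P355 Vale.Agent.P355.H147 Vale.Agent.P355.H998.E Vale.Agent.P355.H41.F1

theorem c193_0 : H182.Cw.PW 4 3 3 D cls mv 193 193 216 := H182.Cw.PW.ck 193 193 22 216 (by decide +kernel)

theorem c193_1 : H182.Cw.PW 4 3 3 D cls mv 193 216 240 := H182.Cw.PW.ck 193 216 23 240 (by decide +kernel)

theorem c193 : CW 4 3 3 D cls mv 193 (Nat.add 193 1) := ((c193_0).trans c193_1).cw hnk (by decide +kernel)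

theorem c194_0 : H182.Cw.PW 4 3 3 D cls mv 194 194 217 := H182.Cw.PW.ck 194 194 22 217 (by decide +kernel)

theorem c194_1 : H182.Cw.PW 4 3 3 D cls mv 194 217 240 := H182.Cw.PW.ck 194 217 22 240 (by decide +kernel)

theorem c194 : CW 4 3 3 D cls mv 194 (Nat.add 194 1) := ((c194_0).trans c194_1).cw hnk (by decide +kernel)

theorem c195_0 : H182.Cw.PW 4 3 3 D cls mv 195 195 217 := H182.Cw.PW.ck 195 195 21 217 (by decide +kernel)

theorem c195_1 : H182.Cw.PW 4 3 3 D cls mv 195 217 240 := H182.Cw.PW.ck 195 217 22 240 (by decide +kernel)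

theorem c195 : CW 4 3 3 D cls mv 195 (Nat.add 195 1) := ((c195_0).trans c195_1).cw hnk (by decide +kernel)

theorem cm182 : CW 4 3 3 D cls mv 193 196 := (c193).trans ((c194).trans (c195))

end Vale.Agent.P355.H182K
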