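import Vale.Agent.P355.H182K.D
import Vale.Agent.P355.H182.Cw

namespace Vale.Agent.P355.H182K

open Vale.Agent.P355 Vale.Agent.P355.H147 Vale.Agent.P355.H998.E Vale.Agent.P355.H41.F1

theorem c196_0 : H182.Cw.PW 4 3 3 D cls mv 196 196 218 := H182.Cw.PW.ck 196 196 21 218 (by decide +kernel)

theorem c196_1 : H182.Cw.PW 4 3 3 D cls mv 196 218 240 := H182.Cw.PW.ck 196 218 21 240 (by decide +kernel)

theorem c196 : CW 4 3 3 D cls mv 196 (Nat.add 196 1) := ((c196_0).trans c196_1).cw hnk (by decide +kernel)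

theorem c197_0 : H182.Cw.PW 4 3 3 D cls mv 197 197 218 := H182.Cw.PW.ck 197 197 20 218 (by decide +kernel)

theorem c197_1 : H182.Cw.PW 4 3 3 D cls mv 197 218 240 := H182.Cw.PW.ck 197 218 21 240 (by decide +kernel)

theorem c197 : CW 4 3 3 D cls mv 197 (Nat.add 197 1) := ((c197_0).trans c197_1).cw hnk (by decide +kernel)

theorem c198_0 : H182.Cw.PW 4 3 3 D cls mv 198 198 219 := H182.Cw.PW.ck 198 198 20 219 (by decide +kernel)

theorem c198_1 : H182.Cw.PW 4 3 3 D cls mv 198 219 240 := H182.Cw.PW.ck 198 219 20 240 (by decide +kernel)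

theorem c198 : CW 4 3 3 D cls mv 198 (Nat.add 198 1) := ((c198_0).trans c198_1).cw hnk (by decide +kernel)

theorem cm183 : CW 4 3 3 D cls mv 196 199 := (c196).trans ((c197).trans (c198))

end Vale.Agent.P355.H182K
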