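import Vale.Agent.P355.H182K.D
import Vale.Agent.P355.H182.Cw

namespace Vale.Agent.P355.H182K

open Vale.Agent.P355 Vale.Agent.P355.H147 Vale.Agent.P355.H998.E Vale.Agent.P355.H41.F1

theorem c199 : CW 4 3 3 D cls mv 199 (Nat.add 199 1) := CW.ck 199 1 (by decide +kernel)

theorem c200 : CW 4 3 3 D cls mv 200 (Nat.add 200 1) := CW.ck 200 1 (by decide +kernel)

theorem c201 : CW 4 3 3 D cls mv 201 (Nat.add 201 1) := CW.ck 201 1 (by decide +kernel)

theorem cm184 : CW 4 3 3 D cls mv 199 202 := (c199).trans ((c200).trans (c201))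

end Vale.Agent.P355.H182K
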