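import Vale.Agent.P355.H182K.D
import Vale.Agent.P355.H182.Cw

namespace Vale.Agent.P355.H182K

open Vale.Agent.P355 Vale.Agent.P355.H147 Vale.Agent.P355.H998.E Vale.Agent.P355.H41.F1

theorem c202 : CW 4 3 3 D cls mv 202 (Nat.add 202 1) := CW.ck 202 1 (by decide +kernel)

theorem c203 : CW 4 3 3 D cls mv 203 (Nat.add 203 1) := CW.ck 203 1 (by decide +kernel)

theorem c204 : CW 4 3 3 D cls mv 204 (Nat.add 204 1) := CW.ck 204 1 (by decide +kernel)

theorem cm185 : CW 4 3 3 D cls mv 202 205 := (c202).trans ((c203).trans (c204))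

end Vale.Agent.P355.H182K
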