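import Vale.Agent.P355.H182K.D
import Vale.Agent.P355.H182.Cw

namespace Vale.Agent.P355.H182K

open Vale.Agent.P355 Vale.Agent.P355.H147 Vale.Agent.P355.H998.E Vale.Agent.P355.H41.F1

theorem c205 : CW 4 3 3 D cls mv 205 (Nat.add 205 1) := CW.ck 205 1 (by decide +kernel)

theorem c206 : CW 4 3 3 D cls mv 206 (Nat.add 206 1) := CW.ck 206 1 (by decide +kernel)

theorem c207 : CW 4 3 3 D cls mv 207 (Nat.add 207 1) := CW.ck 207 1 (by decide +kernel)

theorem c208 : CW 4 3 3 D cls mv 208 (Nat.add 208 1) := CW.ck 208 1 (by decide +kernel)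

theorem cm186 : CW 4 3 3 D cls mv 205 209 := ((c205).trans (c206)).trans ((c207).trans (c208))

end Vale.Agent.P355.H182K
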