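import Vale.Agent.P355.H182K.D
import Vale.Agent.P355.H182.Cw

namespace Vale.Agent.P355.H182K

open Vale.Agent.P355 Vale.Agent.P355.H147 Vale.Agent.P355.H998.E Vale.Agent.P355.H41.F1

theorem c209 : CW 4 3 3 D cls mv 209 (Nat.add 209 1) := CW.ck 209 1 (by decide +kernel)

theorem c210 : CW 4 3 3 D cls mv 210 (Nat.add 210 1) := CW.ck 210 1 (by decide +kernel)

theorem c211 : CW 4 3 3 D cls mv 211 (Nat.add 211 1) := CW.ck 211 1 (by decide +kernel)

theorem c212 : CW 4 3 3 D cls mv 212 (Nat.add 212 1) := CW.ck 212 1 (by decide +kernel)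

theorem cm187 : CW 4 3 3 D cls mv 209 213 := ((c209).trans (c210)).trans ((c211).trans (c212))

end Vale.Agent.P355.H182K
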