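import Vale.Agent.P355.H182K.D
import Vale.Agent.P355.H182.Cw

namespace Vale.Agent.P355.H182K

open Vale.Agent.P355 Vale.Agent.P355.H147 Vale.Agent.P355.H998.E Vale.Agent.P355.H41.F1

theorem c213 : CW 4 3 3 D cls mv 213 (Nat.add 213 1) := CW.ck 213 1 (by decide +kernel)

theorem c214 : CW 4 3 3 D cls mv 214 (Nat.add 214 1) := CW.ck 214 1 (by decide +kernel)

theorem c215 : CW 4 3 3 D cls mv 215 (Nat.add 215 1) := CW.ck 215 1 (by decide +kernel)

theorem c216 : CW 4 3 3 D cls mv 216 (Nat.add 216 1) := CW.ck 216 1 (by decide +kernel)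

theorem c217 : CW 4 3 3 D cls mv 217 (Nat.add 217 1) := CW.ck 217 1 (by decide +kernel)

theorem cm188 : CW 4 3 3 D cls mv 213 218 := ((c213).trans (c214)).trans ((c215).trans ((c216).trans (c217)))

end Vale.Agent.P355.H182K
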