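import Vale.Agent.P355.H182K.D
import Vale.Agent.P355.H182.Cw

namespace Vale.Agent.P355.H182K

open Vale.Agent.P355 Vale.Agent.P355.H147 Vale.Agent.P355.H998.E Vale.Agent.P355.H41.F1

theorem c218 : CW 4 3 3 D cls mv 218 (Nat.add 218 1) := CW.ck 218 1 (by decide +kernel)

theorem c219 : CW 4 3 3 D cls mv 219 (Nat.add 219 1) := CW.ck 219 1 (by decide +kernel)

theorem c220 : CW 4 3 3 D cls mv 220 (Nat.add 220 1) := CW.ck 220 1 (by decide +kernel)

theorem c221 : CW 4 3 3 D cls mv 221 (Nat.add 221 1) := CW.ck 221 1 (by decide +kernel)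

theorem c222 : CW 4 3 3 D cls mv 222 (Nat.add 222 1) := CW.ck 222 1 (by decide +kernel)

theorem c223 : CW 4 3 3 D cls mv 223 (Nat.add 223 1) := CW.ck 223 1 (by decide +kernel)

theorem c224 : CW 4 3 3 D cls mv 224 (Nat.add 224 1) := CW.ck 224 1 (by decide +kernel)

theorem cm189 : CW 4 3 3 D cls mv 218 225 := ((c218).trans ((c219).trans (c220))).trans (((c221).trans (c222)).trans ((c223).trans (c224)))

end Vale.Agent.P355.H182K
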