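import Vale.Agent.P355.H182K.D
import Vale.Agent.P355.H182.Cw

namespace Vale.Agent.P355.H182K

open Vale.Agent.P355 Vale.Agent.P355.H147 Vale.Agent.P355.H998.E Vale.Agent.P355.H41.F1

theorem c19_0 : H182.Cw.PW 4 3 3 D cls mv 19 19 55 := H182.Cw.PW.ck 19 19 35 55 (by decide +kernel)

theorem c19_1 : H182.Cw.PW 4 3 3 D cls mv 19 55 92 := H182.Cw.PW.ck 19 55 36 92 (by decide +kernel)

theorem c19_2 : H182.Cw.PW 4 3 3 D cls mv 19 92 129 := H182.Cw.PW.ck 19 92 36 129 (by decide +kernel)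

theorem c19_3 : H182.Cw.PW 4 3 3 D cls mv 19 129 166 := H182.Cw.PW.ck 19 129 36 166 (by decide +kernel)

theorem c19_4 : H182.Cw.PW 4 3 3 D cls mv 19 166 203 := H182.Cw.PW.ck 19 166 36 203 (by decide +kernel)

theorem c19_5 : H182.Cw.PW 4 3 3 D cls mv 19 203 240 := H182.Cw.PW.ck 19 203 36 240 (by decide +kernel)

theorem c19 : CW 4 3 3 D cls mv 19 (Nat.add 19 1) := ((((((c19_0).trans c19_1).trans c19_2).trans c19_3).trans c19_4).trans c19_5).cw hnk (by decide +kernel)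

theorem cm19 : CW 4 3 3 D cls mv 19 20 := c19

end Vale.Agent.P355.H182K
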