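import Vale.Agent.P355.H182K.D
import Vale.Agent.P355.H182.Cw

namespace Vale.Agent.P355.H182K

open Vale.Agent.P355 Vale.Agent.P355.H147 Vale.Agent.P355.H998.E Vale.Agent.P355.H41.F1

theorem c225 : CW 4 3 3 D cls mv 225 (Nat.add 225 1) := CW.ck 225 1 (by decide +kernel)

theorem c226 : CW 4 3 3 D cls mv 226 (Nat.add 226 1) := CW.ck 226 1 (by decide +kernel)

theorem c227 : CW 4 3 3 D cls mv 227 (Nat.add 227 1) := CW.ck 227 1 (by decide +kernel)

theorem c228 : CW 4 3 3 D cls mv 228 (Nat.add 228 1) := CW.ck 228 1 (by decide +kernel)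

theorem c229 : CW 4 3 3 D cls mv 229 (Nat.add 229 1) := CW.ck 229 1 (by decide +kernel)

theorem c230 : CW 4 3 3 D cls mv 230 (Nat.add 230 1) := CW.ck 230 1 (by decide +kernel)

theorem c231 : CW 4 3 3 D cls mv 231 (Nat.add 231 2) := CW.ck 231 2 (by decide +kernel)

theorem c233 : CW 4 3 3 D cls mv 233 (Nat.add 233 2) := CW.ck 233 2 (by decide +kernel)

theorem c235 : CW 4 3 3 D cls mv 235 (Nat.add 235 5) := CW.ck 235 5 (by decide +kernel)

theorem cm190 : CW 4 3 3 D cls mv 225 240 := (((c225).trans (c226)).trans ((c227).trans (c228))).trans (((c229).trans (c230)).trans ((c231).trans ((c233).trans (c235))))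

end Vale.Agent.P355.H182K
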