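import Vale.Agent.P355.H182K.D
import Vale.Agent.P355.H182.Cw

namespace Vale.Agent.P355.H182K

open Vale.Agent.P355 Vale.Agent.P355.H147 Vale.Agent.P355.H998.E Vale.Agent.P355.H41.F1

theorem c2_0 : H182.Cw.PW 4 3 3 D cls mv 2 2 41 := H182.Cw.PW.ck 2 2 38 41 (by decide +kernel)

theorem c2_1 : H182.Cw.PW 4 3 3 D cls mv 2 41 81 := H182.Cw.PW.ck 2 41 39 81 (by decide +kernel)

theorem c2_2 : H182.Cw.PW 4 3 3 D cls mv 2 81 121 := H182.Cw.PW.ck 2 81 39 121 (by decide +kernel)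

theorem c2_3 : H182.Cw.PW 4 3 3 D cls mv 2 121 160 := H182.Cw.PW.ck 2 121 38 160 (by decide +kernel)

theorem c2_4 : H182.Cw.PW 4 3 3 D cls mv 2 160 200 := H182.Cw.PW.ck 2 160 39 200 (by decide +kernel)

theorem c2_5 : H182.Cw.PW 4 3 3 D cls mv 2 200 240 := H182.Cw.PW.ck 2 200 39 240 (by decide +kernel)

theorem c2 : CW 4 3 3 D cls mv 2 (Nat.add 2 1) := ((((((c2_0).trans c2_1).trans c2_2).trans c2_3).trans c2_4).trans c2_5).cw hnk (by decide +kernel)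

theorem cm2 : CW 4 3 3 D cls mv 2 3 := c2

end Vale.Agent.P355.H182K
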