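import Vale.Agent.P355.H182K.D
import Vale.Agent.P355.H182.Cw

namespace Vale.Agent.P355.H182K

open Vale.Agent.P355 Vale.Agent.P355.H147 Vale.Agent.P355.H998.E Vale.Agent.P355.H41.F1

theorem c20_0 : H182.Cw.PW 4 3 3 D cls mv 20 20 56 := H182.Cw.PW.ck 20 20 35 56 (by decide +kernel)

theorem c20_1 : H182.Cw.PW 4 3 3 D cls mv 20 56 93 := H182.Cw.PW.ck 20 56 36 93 (by decide +kernel)

theorem c20_2 : H182.Cw.PW 4 3 3 D cls mv 20 93 130 := H182.Cw.PW.ck 20 93 36 130 (by decide +kernel)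

theorem c20_3 : H182.Cw.PW 4 3 3 D cls mv 20 130 166 := H182.Cw.PW.ck 20 130 35 166 (by decide +kernel)

theorem c20_4 : H182.Cw.PW 4 3 3 D cls mv 20 166 203 := H182.Cw.PW.ck 20 166 36 203 (by decide +kernel)

theorem c20_5 : H182.Cw.PW 4 3 3 D cls mv 20 203 240 := H182.Cw.PW.ck 20 203 36 240 (by decide +kernel)

theorem c20 : CW 4 3 3 D cls mv 20 (Nat.add 20 1) := ((((((c20_0).trans c20_1).trans c20_2).trans c20_3).trans c20_4).trans c20_5).cw hnk (by decide +kernel)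

theorem cm20 : CW 4 3 3 D cls mv 20 21 := c20

end Vale.Agent.P355.H182K
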