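import Vale.Agent.P355.H182K.D
import Vale.Agent.P355.H182.Cw

namespace Vale.Agent.P355.H182K

open Vale.Agent.P355 Vale.Agent.P355.H147 Vale.Agent.P355.H998.E Vale.Agent.P355.H41.F1

theorem c21_0 : H182.Cw.PW 4 3 3 D cls mv 21 21 57 := H182.Cw.PW.ck 21 21 35 57 (by decide +kernel)

theorem c21_1 : H182.Cw.PW 4 3 3 D cls mv 21 57 94 := H182.Cw.PW.ck 21 57 36 94 (by decide +kernel)

theorem c21_2 : H182.Cw.PW 4 3 3 D cls mv 21 94 130 := H182.Cw.PW.ck 21 94 35 130 (by decide +kernel)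

theorem c21_3 : H182.Cw.PW 4 3 3 D cls mv 21 130 167 := H182.Cw.PW.ck 21 130 36 167 (by decide +kernel)

theorem c21_4 : H182.Cw.PW 4 3 3 D cls mv 21 167 203 := H182.Cw.PW.ck 21 167 35 203 (by decide +kernel)

theorem c21_5 : H182.Cw.PW 4 3 3 D cls mv 21 203 240 := H182.Cw.PW.ck 21 203 36 240 (by decide +kernel)

theorem c21 : CW 4 3 3 D cls mv 21 (Nat.add 21 1) := ((((((c21_0).trans c21_1).trans c21_2).trans c21_3).trans c21_4).trans c21_5).cw hnk (by decide +kernel)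

theorem cm21 : CW 4 3 3 D cls mv 21 22 := c21

end Vale.Agent.P355.H182K
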