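import Vale.Agent.P355.H182K.D
import Vale.Agent.P355.H182.Cw

namespace Vale.Agent.P355.H182K

open Vale.Agent.P355 Vale.Agent.P355.H147 Vale.Agent.P355.H998.E Vale.Agent.P355.H41.F1

theorem c22_0 : H182.Cw.PW 4 3 3 D cls mv 22 22 58 := H182.Cw.PW.ck 22 22 35 58 (by decide +kernel)

theorem c22_1 : H182.Cw.PW 4 3 3 D cls mv 22 58 94 := H182.Cw.PW.ck 22 58 35 94 (by decide +kernel)

theorem c22_2 : H182.Cw.PW 4 3 3 D cls mv 22 94 131 := H182.Cw.PW.ck 22 94 36 131 (by decide +kernel)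

theorem c22_3 : H182.Cw.PW 4 3 3 D cls mv 22 131 167 := H182.Cw.PW.ck 22 131 35 167 (by decide +kernel)

theorem c22_4 : H182.Cw.PW 4 3 3 D cls mv 22 167 203 := H182.Cw.PW.ck 22 167 35 203 (by decide +kernel)

theorem c22_5 : H182.Cw.PW 4 3 3 D cls mv 22 203 240 := H182.Cw.PW.ck 22 203 36 240 (by decide +kernel)

theorem c22 : CW 4 3 3 D cls mv 22 (Nat.add 22 1) := ((((((c22_0).trans c22_1).trans c22_2).trans c22_3).trans c22_4).trans c22_5).cw hnk (by decide +kernel)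

theorem cm22 : CW 4 3 3 D cls mv 22 23 := c22

end Vale.Agent.P355.H182K
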