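import Vale.Agent.P355.H182K.D
import Vale.Agent.P355.H182.Cw

namespace Vale.Agent.P355.H182K

open Vale.Agent.P355 Vale.Agent.P355.H147 Vale.Agent.P355.H998.E Vale.Agent.P355.H41.F1

theorem c23_0 : H182.Cw.PW 4 3 3 D cls mv 23 23 59 := H182.Cw.PW.ck 23 23 35 59 (by decide +kernel)

theorem c23_1 : H182.Cw.PW 4 3 3 D cls mv 23 59 95 := H182.Cw.PW.ck 23 59 35 95 (by decide +kernel)

theorem c23_2 : H182.Cw.PW 4 3 3 D cls mv 23 95 131 := H182.Cw.PW.ck 23 95 35 131 (by decide +kernel)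

theorem c23_3 : H182.Cw.PW 4 3 3 D cls mv 23 131 167 := H182.Cw.PW.ck 23 131 35 167 (by decide +kernel)

theorem c23_4 : H182.Cw.PW 4 3 3 D cls mv 23 167 203 := H182.Cw.PW.ck 23 167 35 203 (by decide +kernel)

theorem c23_5 : H182.Cw.PW 4 3 3 D cls mv 23 203 240 := H182.Cw.PW.ck 23 203 36 240 (by decide +kernel)

theorem c23 : CW 4 3 3 D cls mv 23 (Nat.add 23 1) := ((((((c23_0).trans c23_1).trans c23_2).trans c23_3).trans c23_4).trans c23_5).cw hnk (by decide +kernel)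

theorem cm23 : CW 4 3 3 D cls mv 23 24 := c23

end Vale.Agent.P355.H182K
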