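import Vale.Agent.P355.H182K.D
import Vale.Agent.P355.H182.Cw

namespace Vale.Agent.P355.H182K

open Vale.Agent.P355 Vale.Agent.P355.H147 Vale.Agent.P355.H998.E Vale.Agent.P355.H41.F1

theorem c24_0 : H182.Cw.PW 4 3 3 D cls mv 24 24 60 := H182.Cw.PW.ck 24 24 35 60 (by decide +kernel)

theorem c24_1 : H182.Cw.PW 4 3 3 D cls mv 24 60 96 := H182.Cw.PW.ck 24 60 35 96 (by decide +kernel)

theorem c24_2 : H182.Cw.PW 4 3 3 D cls mv 24 96 132 := H182.Cw.PW.ck 24 96 35 132 (by decide +kernel)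

theorem c24_3 : H182.Cw.PW 4 3 3 D cls mv 24 132 168 := H182.Cw.PW.ck 24 132 35 168 (by decide +kernel)

theorem c24_4 : H182.Cw.PW 4 3 3 D cls mv 24 168 204 := H182.Cw.PW.ck 24 168 35 204 (by decide +kernel)

theorem c24_5 : H182.Cw.PW 4 3 3 D cls mv 24 204 240 := H182.Cw.PW.ck 24 204 35 240 (by decide +kernel)

theorem c24 : CW 4 3 3 D cls mv 24 (Nat.add 24 1) := ((((((c24_0).trans c24_1).trans c24_2).trans c24_3).trans c24_4).trans c24_5).cw hnk (by decide +kernel)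

theorem cm24 : CW 4 3 3 D cls mv 24 25 := c24

end Vale.Agent.P355.H182K
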