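import Vale.Agent.P355.H182K.D
import Vale.Agent.P355.H182.Cw

namespace Vale.Agent.P355.H182K

open Vale.Agent.P355 Vale.Agent.P355.H147 Vale.Agent.P355.H998.E Vale.Agent.P355.H41.F1

theorem c25_0 : H182.Cw.PW 4 3 3 D cls mv 25 25 60 := H182.Cw.PW.ck 25 25 34 60 (by decide +kernel)

theorem c25_1 : H182.Cw.PW 4 3 3 D cls mv 25 60 96 := H182.Cw.PW.ck 25 60 35 96 (by decide +kernel)

theorem c25_2 : H182.Cw.PW 4 3 3 D cls mv 25 96 132 := H182.Cw.PW.ck 25 96 35 132 (by decide +kernel)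

theorem c25_3 : H182.Cw.PW 4 3 3 D cls mv 25 132 168 := H182.Cw.PW.ck 25 132 35 168 (by decide +kernel)

theorem c25_4 : H182.Cw.PW 4 3 3 D cls mv 25 168 204 := H182.Cw.PW.ck 25 168 35 204 (by decide +kernel)

theorem c25_5 : H182.Cw.PW 4 3 3 D cls mv 25 204 240 := H182.Cw.PW.ck 25 204 35 240 (by decide +kernel)

theorem c25 : CW 4 3 3 D cls mv 25 (Nat.add 25 1) := ((((((c25_0).trans c25_1).trans c25_2).trans c25_3).trans c25_4).trans c25_5).cw hnk (by decide +kernel)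

theorem cm25 : CW 4 3 3 D cls mv 25 26 := c25

end Vale.Agent.P355.H182K
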