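import Vale.Agent.P355.H182K.D
import Vale.Agent.P355.H182.Cw

namespace Vale.Agent.P355.H182K

open Vale.Agent.P355 Vale.Agent.P355.H147 Vale.Agent.P355.H998.E Vale.Agent.P355.H41.F1

theorem c26_0 : H182.Cw.PW 4 3 3 D cls mv 26 26 61 := H182.Cw.PW.ck 26 26 34 61 (by decide +kernel)

theorem c26_1 : H182.Cw.PW 4 3 3 D cls mv 26 61 97 := H182.Cw.PW.ck 26 61 35 97 (by decide +kernel)

theorem c26_2 : H182.Cw.PW 4 3 3 D cls mv 26 97 133 := H182.Cw.PW.ck 26 97 35 133 (by decide +kernel)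

theorem c26_3 : H182.Cw.PW 4 3 3 D cls mv 26 133 168 := H182.Cw.PW.ck 26 133 34 168 (by decide +kernel)

theorem c26_4 : H182.Cw.PW 4 3 3 D cls mv 26 168 204 := H182.Cw.PW.ck 26 168 35 204 (by decide +kernel)

theorem c26_5 : H182.Cw.PW 4 3 3 D cls mv 26 204 240 := H182.Cw.PW.ck 26 204 35 240 (by decide +kernel)

theorem c26 : CW 4 3 3 D cls mv 26 (Nat.add 26 1) := ((((((c26_0).trans c26_1).trans c26_2).trans c26_3).trans c26_4).trans c26_5).cw hnk (by decide +kernel)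

theorem cm26 : CW 4 3 3 D cls mv 26 27 := c26

end Vale.Agent.P355.H182K
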