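import Vale.Agent.P355.H182K.D
import Vale.Agent.P355.H182.Cw

namespace Vale.Agent.P355.H182K

open Vale.Agent.P355 Vale.Agent.P355.H147 Vale.Agent.P355.H998.E Vale.Agent.P355.H41.F1

theorem c27_0 : H182.Cw.PW 4 3 3 D cls mv 27 27 62 := H182.Cw.PW.ck 27 27 34 62 (by decide +kernel)

theorem c27_1 : H182.Cw.PW 4 3 3 D cls mv 27 62 98 := H182.Cw.PW.ck 27 62 35 98 (by decide +kernel)

theorem c27_2 : H182.Cw.PW 4 3 3 D cls mv 27 98 133 := H182.Cw.PW.ck 27 98 34 133 (by decide +kernel)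

theorem c27_3 : H182.Cw.PW 4 3 3 D cls mv 27 133 169 := H182.Cw.PW.ck 27 133 35 169 (by decide +kernel)

theorem c27_4 : H182.Cw.PW 4 3 3 D cls mv 27 169 204 := H182.Cw.PW.ck 27 169 34 204 (by decide +kernel)

theorem c27_5 : H182.Cw.PW 4 3 3 D cls mv 27 204 240 := H182.Cw.PW.ck 27 204 35 240 (by decide +kernel)

theorem c27 : CW 4 3 3 D cls mv 27 (Nat.add 27 1) := ((((((c27_0).trans c27_1).trans c27_2).trans c27_3).trans c27_4).trans c27_5).cw hnk (by decide +kernel)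

theorem cm27 : CW 4 3 3 D cls mv 27 28 := c27

end Vale.Agent.P355.H182K
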