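import Vale.Agent.P355.H182K.D
import Vale.Agent.P355.H182.Cw

namespace Vale.Agent.P355.H182K

open Vale.Agent.P355 Vale.Agent.P355.H147 Vale.Agent.P355.H998.E Vale.Agent.P355.H41.F1

theorem c28_0 : H182.Cw.PW 4 3 3 D cls mv 28 28 63 := H182.Cw.PW.ck 28 28 34 63 (by decide +kernel)

theorem c28_1 : H182.Cw.PW 4 3 3 D cls mv 28 63 98 := H182.Cw.PW.ck 28 63 34 98 (by decide +kernel)

theorem c28_2 : H182.Cw.PW 4 3 3 D cls mv 28 98 134 := H182.Cw.PW.ck 28 98 35 134 (by decide +kernel)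

theorem c28_3 : H182.Cw.PW 4 3 3 D cls mv 28 134 169 := H182.Cw.PW.ck 28 134 34 169 (by decide +kernel)

theorem c28_4 : H182.Cw.PW 4 3 3 D cls mv 28 169 204 := H182.Cw.PW.ck 28 169 34 204 (by decide +kernel)

theorem c28_5 : H182.Cw.PW 4 3 3 D cls mv 28 204 240 := H182.Cw.PW.ck 28 204 35 240 (by decide +kernel)

theorem c28 : CW 4 3 3 D cls mv 28 (Nat.add 28 1) := ((((((c28_0).trans c28_1).trans c28_2).trans c28_3).trans c28_4).trans c28_5).cw hnk (by decide +kernel)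

theorem cm28 : CW 4 3 3 D cls mv 28 29 := c28

end Vale.Agent.P355.H182K
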