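import Vale.Agent.P355.H182K.D
import Vale.Agent.P355.H182.Cw

namespace Vale.Agent.P355.H182K

open Vale.Agent.P355 Vale.Agent.P355.H147 Vale.Agent.P355.H998.E Vale.Agent.P355.H41.F1

theorem c29_0 : H182.Cw.PW 4 3 3 D cls mv 29 29 64 := H182.Cw.PW.ck 29 29 34 64 (by decide +kernel)

theorem c29_1 : H182.Cw.PW 4 3 3 D cls mv 29 64 99 := H182.Cw.PW.ck 29 64 34 99 (by decide +kernel)

theorem c29_2 : H182.Cw.PW 4 3 3 D cls mv 29 99 134 := H182.Cw.PW.ck 29 99 34 134 (by decide +kernel)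

theorem c29_3 : H182.Cw.PW 4 3 3 D cls mv 29 134 169 := H182.Cw.PW.ck 29 134 34 169 (by decide +kernel)

theorem c29_4 : H182.Cw.PW 4 3 3 D cls mv 29 169 204 := H182.Cw.PW.ck 29 169 34 204 (by decide +kernel)

theorem c29_5 : H182.Cw.PW 4 3 3 D cls mv 29 204 240 := H182.Cw.PW.ck 29 204 35 240 (by decide +kernel)

theorem c29 : CW 4 3 3 D cls mv 29 (Nat.add 29 1) := ((((((c29_0).trans c29_1).trans c29_2).trans c29_3).trans c29_4).trans c29_5).cw hnk (by decide +kernel)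

theorem cm29 : CW 4 3 3 D cls mv 29 30 := c29

end Vale.Agent.P355.H182K
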