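import Vale.Agent.P355.H182K.D
import Vale.Agent.P355.H182.Cw

namespace Vale.Agent.P355.H182K

open Vale.Agent.P355 Vale.Agent.P355.H147 Vale.Agent.P355.H998.E Vale.Agent.P355.H41.F1

theorem c3_0 : H182.Cw.PW 4 3 3 D cls mv 3 3 42 := H182.Cw.PW.ck 3 3 38 42 (by decide +kernel)

theorem c3_1 : H182.Cw.PW 4 3 3 D cls mv 3 42 82 := H182.Cw.PW.ck 3 42 39 82 (by decide +kernel)

theorem c3_2 : H182.Cw.PW 4 3 3 D cls mv 3 82 121 := H182.Cw.PW.ck 3 82 38 121 (by decide +kernel)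

theorem c3_3 : H182.Cw.PW 4 3 3 D cls mv 3 121 161 := H182.Cw.PW.ck 3 121 39 161 (by decide +kernel)

theorem c3_4 : H182.Cw.PW 4 3 3 D cls mv 3 161 200 := H182.Cw.PW.ck 3 161 38 200 (by decide +kernel)

theorem c3_5 : H182.Cw.PW 4 3 3 D cls mv 3 200 240 := H182.Cw.PW.ck 3 200 39 240 (by decide +kernel)

theorem c3 : CW 4 3 3 D cls mv 3 (Nat.add 3 1) := ((((((c3_0).trans c3_1).trans c3_2).trans c3_3).trans c3_4).trans c3_5).cw hnk (by decide +kernel)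

theorem cm3 : CW 4 3 3 D cls mv 3 4 := c3

end Vale.Agent.P355.H182K
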