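import Vale.Agent.P355.H182K.D
import Vale.Agent.P355.H182.Cw

namespace Vale.Agent.P355.H182K

open Vale.Agent.P355 Vale.Agent.P355.H147 Vale.Agent.P355.H998.E Vale.Agent.P355.H41.F1

theorem c30_0 : H182.Cw.PW 4 3 3 D cls mv 30 30 65 := H182.Cw.PW.ck 30 30 34 65 (by decide +kernel)

theorem c30_1 : H182.Cw.PW 4 3 3 D cls mv 30 65 100 := H182.Cw.PW.ck 30 65 34 100 (by decide +kernel)

theorem c30_2 : H182.Cw.PW 4 3 3 D cls mv 30 100 135 := H182.Cw.PW.ck 30 100 34 135 (by decide +kernel)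

theorem c30_3 : H182.Cw.PW 4 3 3 D cls mv 30 135 170 := H182.Cw.PW.ck 30 135 34 170 (by decide +kernel)

theorem c30_4 : H182.Cw.PW 4 3 3 D cls mv 30 170 205 := H182.Cw.PW.ck 30 170 34 205 (by decide +kernel)

theorem c30_5 : H182.Cw.PW 4 3 3 D cls mv 30 205 240 := H182.Cw.PW.ck 30 205 34 240 (by decide +kernel)

theorem c30 : CW 4 3 3 D cls mv 30 (Nat.add 30 1) := ((((((c30_0).trans c30_1).trans c30_2).trans c30_3).trans c30_4).trans c30_5).cw hnk (by decide +kernel)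

theorem cm30 : CW 4 3 3 D cls mv 30 31 := c30

end Vale.Agent.P355.H182K
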