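import Vale.Agent.P355.H182K.D
import Vale.Agent.P355.H182.Cw

namespace Vale.Agent.P355.H182K

open Vale.Agent.P355 Vale.Agent.P355.H147 Vale.Agent.P355.H998.E Vale.Agent.P355.H41.F1

theorem c31_0 : H182.Cw.PW 4 3 3 D cls mv 31 31 65 := H182.Cw.PW.ck 31 31 33 65 (by decide +kernel)

theorem c31_1 : H182.Cw.PW 4 3 3 D cls mv 31 65 100 := H182.Cw.PW.ck 31 65 34 100 (by decide +kernel)

theorem c31_2 : H182.Cw.PW 4 3 3 D cls mv 31 100 135 := H182.Cw.PW.ck 31 100 34 135 (by decide +kernel)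

theorem c31_3 : H182.Cw.PW 4 3 3 D cls mv 31 135 170 := H182.Cw.PW.ck 31 135 34 170 (by decide +kernel)

theorem c31_4 : H182.Cw.PW 4 3 3 D cls mv 31 170 205 := H182.Cw.PW.ck 31 170 34 205 (by decide +kernel)

theorem c31_5 : H182.Cw.PW 4 3 3 D cls mv 31 205 240 := H182.Cw.PW.ck 31 205 34 240 (by decide +kernel)

theorem c31 : CW 4 3 3 D cls mv 31 (Nat.add 31 1) := ((((((c31_0).trans c31_1).trans c31_2).trans c31_3).trans c31_4).trans c31_5).cw hnk (by decide +kernel)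

theorem cm31 : CW 4 3 3 D cls mv 31 32 := c31

end Vale.Agent.P355.H182K
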