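import Vale.Agent.P355.H182K.D
import Vale.Agent.P355.H182.Cw

namespace Vale.Agent.P355.H182K

open Vale.Agent.P355 Vale.Agent.P355.H147 Vale.Agent.P355.H998.E Vale.Agent.P355.H41.F1

theorem c32_0 : H182.Cw.PW 4 3 3 D cls mv 32 32 73 := H182.Cw.PW.ck 32 32 40 73 (by decide +kernel)

theorem c32_1 : H182.Cw.PW 4 3 3 D cls mv 32 73 115 := H182.Cw.PW.ck 32 73 41 115 (by decide +kernel)

theorem c32_2 : H182.Cw.PW 4 3 3 D cls mv 32 115 156 := H182.Cw.PW.ck 32 115 40 156 (by decide +kernel)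

theorem c32_3 : H182.Cw.PW 4 3 3 D cls mv 32 156 198 := H182.Cw.PW.ck 32 156 41 198 (by decide +kernel)

theorem c32_4 : H182.Cw.PW 4 3 3 D cls mv 32 198 240 := H182.Cw.PW.ck 32 198 41 240 (by decide +kernel)

theorem c32 : CW 4 3 3 D cls mv 32 (Nat.add 32 1) := (((((c32_0).trans c32_1).trans c32_2).trans c32_3).trans c32_4).cw hnk (by decide +kernel)

theorem cm32 : CW 4 3 3 D cls mv 32 33 := c32

end Vale.Agent.P355.H182K
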