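import Vale.Agent.P355.H182K.D
import Vale.Agent.P355.H182.Cw

namespace Vale.Agent.P355.H182K

open Vale.Agent.P355 Vale.Agent.P355.H147 Vale.Agent.P355.H998.E Vale.Agent.P355.H41.F1

theorem c33_0 : H182.Cw.PW 4 3 3 D cls mv 33 33 74 := H182.Cw.PW.ck 33 33 40 74 (by decide +kernel)

theorem c33_1 : H182.Cw.PW 4 3 3 D cls mv 33 74 115 := H182.Cw.PW.ck 33 74 40 115 (by decide +kernel)

theorem c33_2 : H182.Cw.PW 4 3 3 D cls mv 33 115 157 := H182.Cw.PW.ck 33 115 41 157 (by decide +kernel)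

theorem c33_3 : H182.Cw.PW 4 3 3 D cls mv 33 157 198 := H182.Cw.PW.ck 33 157 40 198 (by decide +kernel)

theorem c33_4 : H182.Cw.PW 4 3 3 D cls mv 33 198 240 := H182.Cw.PW.ck 33 198 41 240 (by decide +kernel)

theorem c33 : CW 4 3 3 D cls mv 33 (Nat.add 33 1) := (((((c33_0).trans c33_1).trans c33_2).trans c33_3).trans c33_4).cw hnk (by decide +kernel)

theorem cm33 : CW 4 3 3 D cls mv 33 34 := c33

end Vale.Agent.P355.H182K
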