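import Vale.Agent.P355.H182K.D
import Vale.Agent.P355.H182.Cw

namespace Vale.Agent.P355.H182K

open Vale.Agent.P355 Vale.Agent.P355.H147 Vale.Agent.P355.H998.E Vale.Agent.P355.H41.F1

theorem c34_0 : H182.Cw.PW 4 3 3 D cls mv 34 34 75 := H182.Cw.PW.ck 34 34 40 75 (by decide +kernel)

theorem c34_1 : H182.Cw.PW 4 3 3 D cls mv 34 75 116 := H182.Cw.PW.ck 34 75 40 116 (by decide +kernel)

theorem c34_2 : H182.Cw.PW 4 3 3 D cls mv 34 116 157 := H182.Cw.PW.ck 34 116 40 157 (by decide +kernel)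

theorem c34_3 : H182.Cw.PW 4 3 3 D cls mv 34 157 198 := H182.Cw.PW.ck 34 157 40 198 (by decide +kernel)

theorem c34_4 : H182.Cw.PW 4 3 3 D cls mv 34 198 240 := H182.Cw.PW.ck 34 198 41 240 (by decide +kernel)

theorem c34 : CW 4 3 3 D cls mv 34 (Nat.add 34 1) := (((((c34_0).trans c34_1).trans c34_2).trans c34_3).trans c34_4).cw hnk (by decide +kernel)

theorem cm34 : CW 4 3 3 D cls mv 34 35 := c34

end Vale.Agent.P355.H182K
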