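import Vale.Agent.P355.H182K.D
import Vale.Agent.P355.H182.Cw

namespace Vale.Agent.P355.H182K

open Vale.Agent.P355 Vale.Agent.P355.H147 Vale.Agent.P355.H998.E Vale.Agent.P355.H41.F1

theorem c35_0 : H182.Cw.PW 4 3 3 D cls mv 35 35 76 := H182.Cw.PW.ck 35 35 40 76 (by decide +kernel)

theorem c35_1 : H182.Cw.PW 4 3 3 D cls mv 35 76 117 := H182.Cw.PW.ck 35 76 40 117 (by decide +kernel)

theorem c35_2 : H182.Cw.PW 4 3 3 D cls mv 35 117 158 := H182.Cw.PW.ck 35 117 40 158 (by decide +kernel)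

theorem c35_3 : H182.Cw.PW 4 3 3 D cls mv 35 158 199 := H182.Cw.PW.ck 35 158 40 199 (by decide +kernel)

theorem c35_4 : H182.Cw.PW 4 3 3 D cls mv 35 199 240 := H182.Cw.PW.ck 35 199 40 240 (by decide +kernel)

theorem c35 : CW 4 3 3 D cls mv 35 (Nat.add 35 1) := (((((c35_0).trans c35_1).trans c35_2).trans c35_3).trans c35_4).cw hnk (by decide +kernel)

theorem cm35 : CW 4 3 3 D cls mv 35 36 := c35

end Vale.Agent.P355.H182K
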