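import Vale.Agent.P355.H182K.D
import Vale.Agent.P355.H182.Cw

namespace Vale.Agent.P355.H182K

open Vale.Agent.P355 Vale.Agent.P355.H147 Vale.Agent.P355.H998.E Vale.Agent.P355.H41.F1

theorem c36_0 : H182.Cw.PW 4 3 3 D cls mv 36 36 76 := H182.Cw.PW.ck 36 36 39 76 (by decide +kernel)

theorem c36_1 : H182.Cw.PW 4 3 3 D cls mv 36 76 117 := H182.Cw.PW.ck 36 76 40 117 (by decide +kernel)

theorem c36_2 : H182.Cw.PW 4 3 3 D cls mv 36 117 158 := H182.Cw.PW.ck 36 117 40 158 (by decide +kernel)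

theorem c36_3 : H182.Cw.PW 4 3 3 D cls mv 36 158 199 := H182.Cw.PW.ck 36 158 40 199 (by decide +kernel)

theorem c36_4 : H182.Cw.PW 4 3 3 D cls mv 36 199 240 := H182.Cw.PW.ck 36 199 40 240 (by decide +kernel)

theorem c36 : CW 4 3 3 D cls mv 36 (Nat.add 36 1) := (((((c36_0).trans c36_1).trans c36_2).trans c36_3).trans c36_4).cw hnk (by decide +kernel)

theorem cm36 : CW 4 3 3 D cls mv 36 37 := c36

end Vale.Agent.P355.H182K
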