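import Vale.Agent.P355.H182K.D
import Vale.Agent.P355.H182.Cw

namespace Vale.Agent.P355.H182K

open Vale.Agent.P355 Vale.Agent.P355.H147 Vale.Agent.P355.H998.E Vale.Agent.P355.H41.F1

theorem c37_0 : H182.Cw.PW 4 3 3 D cls mv 37 37 77 := H182.Cw.PW.ck 37 37 39 77 (by decide +kernel)

theorem c37_1 : H182.Cw.PW 4 3 3 D cls mv 37 77 118 := H182.Cw.PW.ck 37 77 40 118 (by decide +kernel)

theorem c37_2 : H182.Cw.PW 4 3 3 D cls mv 37 118 158 := H182.Cw.PW.ck 37 118 39 158 (by decide +kernel)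

theorem c37_3 : H182.Cw.PW 4 3 3 D cls mv 37 158 199 := H182.Cw.PW.ck 37 158 40 199 (by decide +kernel)

theorem c37_4 : H182.Cw.PW 4 3 3 D cls mv 37 199 240 := H182.Cw.PW.ck 37 199 40 240 (by decide +kernel)

theorem c37 : CW 4 3 3 D cls mv 37 (Nat.add 37 1) := (((((c37_0).trans c37_1).trans c37_2).trans c37_3).trans c37_4).cw hnk (by decide +kernel)

theorem cm37 : CW 4 3 3 D cls mv 37 38 := c37

end Vale.Agent.P355.H182K
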