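import Vale.Agent.P355.H182K.D
import Vale.Agent.P355.H182.Cw

namespace Vale.Agent.P355.H182K

open Vale.Agent.P355 Vale.Agent.P355.H147 Vale.Agent.P355.H998.E Vale.Agent.P355.H41.F1

theorem c38_0 : H182.Cw.PW 4 3 3 D cls mv 38 38 78 := H182.Cw.PW.ck 38 38 39 78 (by decide +kernel)

theorem c38_1 : H182.Cw.PW 4 3 3 D cls mv 38 78 118 := H182.Cw.PW.ck 38 78 39 118 (by decide +kernel)

theorem c38_2 : H182.Cw.PW 4 3 3 D cls mv 38 118 159 := H182.Cw.PW.ck 38 118 40 159 (by decide +kernel)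

theorem c38_3 : H182.Cw.PW 4 3 3 D cls mv 38 159 199 := H182.Cw.PW.ck 38 159 39 199 (by decide +kernel)

theorem c38_4 : H182.Cw.PW 4 3 3 D cls mv 38 199 240 := H182.Cw.PW.ck 38 199 40 240 (by decide +kernel)

theorem c38 : CW 4 3 3 D cls mv 38 (Nat.add 38 1) := (((((c38_0).trans c38_1).trans c38_2).trans c38_3).trans c38_4).cw hnk (by decide +kernel)

theorem cm38 : CW 4 3 3 D cls mv 38 39 := c38

end Vale.Agent.P355.H182K
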