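import Vale.Agent.P355.H182K.D
import Vale.Agent.P355.H182.Cw

namespace Vale.Agent.P355.H182K

open Vale.Agent.P355 Vale.Agent.P355.H147 Vale.Agent.P355.H998.E Vale.Agent.P355.H41.F1

theorem c4_0 : H182.Cw.PW 4 3 3 D cls mv 4 4 43 := H182.Cw.PW.ck 4 4 38 43 (by decide +kernel)

theorem c4_1 : H182.Cw.PW 4 3 3 D cls mv 4 43 82 := H182.Cw.PW.ck 4 43 38 82 (by decide +kernel)

theorem c4_2 : H182.Cw.PW 4 3 3 D cls mv 4 82 122 := H182.Cw.PW.ck 4 82 39 122 (by decide +kernel)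

theorem c4_3 : H182.Cw.PW 4 3 3 D cls mv 4 122 161 := H182.Cw.PW.ck 4 122 38 161 (by decide +kernel)

theorem c4_4 : H182.Cw.PW 4 3 3 D cls mv 4 161 200 := H182.Cw.PW.ck 4 161 38 200 (by decide +kernel)

theorem c4_5 : H182.Cw.PW 4 3 3 D cls mv 4 200 240 := H182.Cw.PW.ck 4 200 39 240 (by decide +kernel)

theorem c4 : CW 4 3 3 D cls mv 4 (Nat.add 4 1) := ((((((c4_0).trans c4_1).trans c4_2).trans c4_3).trans c4_4).trans c4_5).cw hnk (by decide +kernel)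

theorem cm4 : CW 4 3 3 D cls mv 4 5 := c4

end Vale.Agent.P355.H182K
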