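import Vale.Agent.P355.H182K.D
import Vale.Agent.P355.H182.Cw

namespace Vale.Agent.P355.H182K

open Vale.Agent.P355 Vale.Agent.P355.H147 Vale.Agent.P355.H998.E Vale.Agent.P355.H41.F1

theorem c40_0 : H182.Cw.PW 4 3 3 D cls mv 40 40 80 := H182.Cw.PW.ck 40 40 39 80 (by decide +kernel)

theorem c40_1 : H182.Cw.PW 4 3 3 D cls mv 40 80 120 := H182.Cw.PW.ck 40 80 39 120 (by decide +kernel)

theorem c40_2 : H182.Cw.PW 4 3 3 D cls mv 40 120 160 := H182.Cw.PW.ck 40 120 39 160 (by decide +kernel)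

theorem c40_3 : H182.Cw.PW 4 3 3 D cls mv 40 160 200 := H182.Cw.PW.ck 40 160 39 200 (by decide +kernel)

theorem c40_4 : H182.Cw.PW 4 3 3 D cls mv 40 200 240 := H182.Cw.PW.ck 40 200 39 240 (by decide +kernel)

theorem c40 : CW 4 3 3 D cls mv 40 (Nat.add 40 1) := (((((c40_0).trans c40_1).trans c40_2).trans c40_3).trans c40_4).cw hnk (by decide +kernel)

theorem cm40 : CW 4 3 3 D cls mv 40 41 := c40

end Vale.Agent.P355.H182K
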