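import Vale.Agent.P355.H182K.D
import Vale.Agent.P355.H182.Cw

namespace Vale.Agent.P355.H182K

open Vale.Agent.P355 Vale.Agent.P355.H147 Vale.Agent.P355.H998.E Vale.Agent.P355.H41.F1

theorem c41_0 : H182.Cw.PW 4 3 3 D cls mv 41 41 80 := H182.Cw.PW.ck 41 41 38 80 (by decide +kernel)

theorem c41_1 : H182.Cw.PW 4 3 3 D cls mv 41 80 120 := H182.Cw.PW.ck 41 80 39 120 (by decide +kernel)

theorem c41_2 : H182.Cw.PW 4 3 3 D cls mv 41 120 160 := H182.Cw.PW.ck 41 120 39 160 (by decide +kernel)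

theorem c41_3 : H182.Cw.PW 4 3 3 D cls mv 41 160 200 := H182.Cw.PW.ck 41 160 39 200 (by decide +kernel)

theorem c41_4 : H182.Cw.PW 4 3 3 D cls mv 41 200 240 := H182.Cw.PW.ck 41 200 39 240 (by decide +kernel)

theorem c41 : CW 4 3 3 D cls mv 41 (Nat.add 41 1) := (((((c41_0).trans c41_1).trans c41_2).trans c41_3).trans c41_4).cw hnk (by decide +kernel)

theorem cm41 : CW 4 3 3 D cls mv 41 42 := c41

end Vale.Agent.P355.H182K
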