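import Vale.Agent.P355.H182K.D
import Vale.Agent.P355.H182.Cw

namespace Vale.Agent.P355.H182K

open Vale.Agent.P355 Vale.Agent.P355.H147 Vale.Agent.P355.H998.E Vale.Agent.P355.H41.F1

theorem c42_0 : H182.Cw.PW 4 3 3 D cls mv 42 42 81 := H182.Cw.PW.ck 42 42 38 81 (by decide +kernel)

theorem c42_1 : H182.Cw.PW 4 3 3 D cls mv 42 81 121 := H182.Cw.PW.ck 42 81 39 121 (by decide +kernel)

theorem c42_2 : H182.Cw.PW 4 3 3 D cls mv 42 121 160 := H182.Cw.PW.ck 42 121 38 160 (by decide +kernel)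

theorem c42_3 : H182.Cw.PW 4 3 3 D cls mv 42 160 200 := H182.Cw.PW.ck 42 160 39 200 (by decide +kernel)

theorem c42_4 : H182.Cw.PW 4 3 3 D cls mv 42 200 240 := H182.Cw.PW.ck 42 200 39 240 (by decide +kernel)

theorem c42 : CW 4 3 3 D cls mv 42 (Nat.add 42 1) := (((((c42_0).trans c42_1).trans c42_2).trans c42_3).trans c42_4).cw hnk (by decide +kernel)

theorem cm42 : CW 4 3 3 D cls mv 42 43 := c42

end Vale.Agent.P355.H182K
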