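import Vale.Agent.P355.H182K.D
import Vale.Agent.P355.H182.Cw

namespace Vale.Agent.P355.H182K

open Vale.Agent.P355 Vale.Agent.P355.H147 Vale.Agent.P355.H998.E Vale.Agent.P355.H41.F1

theorem c43_0 : H182.Cw.PW 4 3 3 D cls mv 43 43 82 := H182.Cw.PW.ck 43 43 38 82 (by decide +kernel)

theorem c43_1 : H182.Cw.PW 4 3 3 D cls mv 43 82 121 := H182.Cw.PW.ck 43 82 38 121 (by decide +kernel)

theorem c43_2 : H182.Cw.PW 4 3 3 D cls mv 43 121 161 := H182.Cw.PW.ck 43 121 39 161 (by decide +kernel)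

theorem c43_3 : H182.Cw.PW 4 3 3 D cls mv 43 161 200 := H182.Cw.PW.ck 43 161 38 200 (by decide +kernel)

theorem c43_4 : H182.Cw.PW 4 3 3 D cls mv 43 200 240 := H182.Cw.PW.ck 43 200 39 240 (by decide +kernel)

theorem c43 : CW 4 3 3 D cls mv 43 (Nat.add 43 1) := (((((c43_0).trans c43_1).trans c43_2).trans c43_3).trans c43_4).cw hnk (by decide +kernel)

theorem cm43 : CW 4 3 3 D cls mv 43 44 := c43

end Vale.Agent.P355.H182K
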