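import Vale.Agent.P355.H182K.D
import Vale.Agent.P355.H182.Cw

namespace Vale.Agent.P355.H182K

open Vale.Agent.P355 Vale.Agent.P355.H147 Vale.Agent.P355.H998.E Vale.Agent.P355.H41.F1

theorem c44_0 : H182.Cw.PW 4 3 3 D cls mv 44 44 83 := H182.Cw.PW.ck 44 44 38 83 (by decide +kernel)

theorem c44_1 : H182.Cw.PW 4 3 3 D cls mv 44 83 122 := H182.Cw.PW.ck 44 83 38 122 (by decide +kernel)

theorem c44_2 : H182.Cw.PW 4 3 3 D cls mv 44 122 161 := H182.Cw.PW.ck 44 122 38 161 (by decide +kernel)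

theorem c44_3 : H182.Cw.PW 4 3 3 D cls mv 44 161 200 := H182.Cw.PW.ck 44 161 38 200 (by decide +kernel)

theorem c44_4 : H182.Cw.PW 4 3 3 D cls mv 44 200 240 := H182.Cw.PW.ck 44 200 39 240 (by decide +kernel)

theorem c44 : CW 4 3 3 D cls mv 44 (Nat.add 44 1) := (((((c44_0).trans c44_1).trans c44_2).trans c44_3).trans c44_4).cw hnk (by decide +kernel)

theorem cm44 : CW 4 3 3 D cls mv 44 45 := c44

end Vale.Agent.P355.H182K
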