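import Vale.Agent.P355.H182K.D
import Vale.Agent.P355.H182.Cw

namespace Vale.Agent.P355.H182K

open Vale.Agent.P355 Vale.Agent.P355.H147 Vale.Agent.P355.H998.E Vale.Agent.P355.H41.F1

theorem c45_0 : H182.Cw.PW 4 3 3 D cls mv 45 45 84 := H182.Cw.PW.ck 45 45 38 84 (by decide +kernel)

theorem c45_1 : H182.Cw.PW 4 3 3 D cls mv 45 84 123 := H182.Cw.PW.ck 45 84 38 123 (by decide +kernel)

theorem c45_2 : H182.Cw.PW 4 3 3 D cls mv 45 123 162 := H182.Cw.PW.ck 45 123 38 162 (by decide +kernel)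

theorem c45_3 : H182.Cw.PW 4 3 3 D cls mv 45 162 201 := H182.Cw.PW.ck 45 162 38 201 (by decide +kernel)

theorem c45_4 : H182.Cw.PW 4 3 3 D cls mv 45 201 240 := H182.Cw.PW.ck 45 201 38 240 (by decide +kernel)

theorem c45 : CW 4 3 3 D cls mv 45 (Nat.add 45 1) := (((((c45_0).trans c45_1).trans c45_2).trans c45_3).trans c45_4).cw hnk (by decide +kernel)

theorem cm45 : CW 4 3 3 D cls mv 45 46 := c45

end Vale.Agent.P355.H182K
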