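import Vale.Agent.P355.H182K.D
import Vale.Agent.P355.H182.Cw

namespace Vale.Agent.P355.H182K

open Vale.Agent.P355 Vale.Agent.P355.H147 Vale.Agent.P355.H998.E Vale.Agent.P355.H41.F1

theorem c46_0 : H182.Cw.PW 4 3 3 D cls mv 46 46 84 := H182.Cw.PW.ck 46 46 37 84 (by decide +kernel)

theorem c46_1 : H182.Cw.PW 4 3 3 D cls mv 46 84 123 := H182.Cw.PW.ck 46 84 38 123 (by decide +kernel)

theorem c46_2 : H182.Cw.PW 4 3 3 D cls mv 46 123 162 := H182.Cw.PW.ck 46 123 38 162 (by decide +kernel)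

theorem c46_3 : H182.Cw.PW 4 3 3 D cls mv 46 162 201 := H182.Cw.PW.ck 46 162 38 201 (by decide +kernel)

theorem c46_4 : H182.Cw.PW 4 3 3 D cls mv 46 201 240 := H182.Cw.PW.ck 46 201 38 240 (by decide +kernel)

theorem c46 : CW 4 3 3 D cls mv 46 (Nat.add 46 1) := (((((c46_0).trans c46_1).trans c46_2).trans c46_3).trans c46_4).cw hnk (by decide +kernel)

theorem cm46 : CW 4 3 3 D cls mv 46 47 := c46

end Vale.Agent.P355.H182K
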