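import Vale.Agent.P355.H182K.D
import Vale.Agent.P355.H182.Cw

namespace Vale.Agent.P355.H182K

open Vale.Agent.P355 Vale.Agent.P355.H147 Vale.Agent.P355.H998.E Vale.Agent.P355.H41.F1

theorem c47_0 : H182.Cw.PW 4 3 3 D cls mv 47 47 85 := H182.Cw.PW.ck 47 47 37 85 (by decide +kernel)

theorem c47_1 : H182.Cw.PW 4 3 3 D cls mv 47 85 124 := H182.Cw.PW.ck 47 85 38 124 (by decide +kernel)

theorem c47_2 : H182.Cw.PW 4 3 3 D cls mv 47 124 162 := H182.Cw.PW.ck 47 124 37 162 (by decide +kernel)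

theorem c47_3 : H182.Cw.PW 4 3 3 D cls mv 47 162 201 := H182.Cw.PW.ck 47 162 38 201 (by decide +kernel)

theorem c47_4 : H182.Cw.PW 4 3 3 D cls mv 47 201 240 := H182.Cw.PW.ck 47 201 38 240 (by decide +kernel)

theorem c47 : CW 4 3 3 D cls mv 47 (Nat.add 47 1) := (((((c47_0).trans c47_1).trans c47_2).trans c47_3).trans c47_4).cw hnk (by decide +kernel)

theorem cm47 : CW 4 3 3 D cls mv 47 48 := c47

end Vale.Agent.P355.H182K
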