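import Vale.Agent.P355.H182K.D
import Vale.Agent.P355.H182.Cw

namespace Vale.Agent.P355.H182K

open Vale.Agent.P355 Vale.Agent.P355.H147 Vale.Agent.P355.H998.E Vale.Agent.P355.H41.F1

theorem c49_0 : H182.Cw.PW 4 3 3 D cls mv 49 49 87 := H182.Cw.PW.ck 49 49 37 87 (by decide +kernel)

theorem c49_1 : H182.Cw.PW 4 3 3 D cls mv 49 87 125 := H182.Cw.PW.ck 49 87 37 125 (by decide +kernel)

theorem c49_2 : H182.Cw.PW 4 3 3 D cls mv 49 125 163 := H182.Cw.PW.ck 49 125 37 163 (by decide +kernel)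

theorem c49_3 : H182.Cw.PW 4 3 3 D cls mv 49 163 201 := H182.Cw.PW.ck 49 163 37 201 (by decide +kernel)

theorem c49_4 : H182.Cw.PW 4 3 3 D cls mv 49 201 240 := H182.Cw.PW.ck 49 201 38 240 (by decide +kernel)

theorem c49 : CW 4 3 3 D cls mv 49 (Nat.add 49 1) := (((((c49_0).trans c49_1).trans c49_2).trans c49_3).trans c49_4).cw hnk (by decide +kernel)

theorem cm49 : CW 4 3 3 D cls mv 49 50 := c49

end Vale.Agent.P355.H182K
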