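import Vale.Agent.P355.H182K.D
import Vale.Agent.P355.H182.Cw

namespace Vale.Agent.P355.H182K

open Vale.Agent.P355 Vale.Agent.P355.H147 Vale.Agent.P355.H998.E Vale.Agent.P355.H41.F1

theorem c5_0 : H182.Cw.PW 4 3 3 D cls mv 5 5 44 := H182.Cw.PW.ck 5 5 38 44 (by decide +kernel)

theorem c5_1 : H182.Cw.PW 4 3 3 D cls mv 5 44 83 := H182.Cw.PW.ck 5 44 38 83 (by decide +kernel)

theorem c5_2 : H182.Cw.PW 4 3 3 D cls mv 5 83 122 := H182.Cw.PW.ck 5 83 38 122 (by decide +kernel)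

theorem c5_3 : H182.Cw.PW 4 3 3 D cls mv 5 122 161 := H182.Cw.PW.ck 5 122 38 161 (by decide +kernel)

theorem c5_4 : H182.Cw.PW 4 3 3 D cls mv 5 161 200 := H182.Cw.PW.ck 5 161 38 200 (by decide +kernel)

theorem c5_5 : H182.Cw.PW 4 3 3 D cls mv 5 200 240 := H182.Cw.PW.ck 5 200 39 240 (by decide +kernel)

theorem c5 : CW 4 3 3 D cls mv 5 (Nat.add 5 1) := ((((((c5_0).trans c5_1).trans c5_2).trans c5_3).trans c5_4).trans c5_5).cw hnk (by decide +kernel)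

theorem cm5 : CW 4 3 3 D cls mv 5 6 := c5

end Vale.Agent.P355.H182K
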