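import Vale.Agent.P355.H182K.D
import Vale.Agent.P355.H182.Cw

namespace Vale.Agent.P355.H182K

open Vale.Agent.P355 Vale.Agent.P355.H147 Vale.Agent.P355.H998.E Vale.Agent.P355.H41.F1

theorem c50_0 : H182.Cw.PW 4 3 3 D cls mv 50 50 88 := H182.Cw.PW.ck 50 50 37 88 (by decide +kernel)

theorem c50_1 : H182.Cw.PW 4 3 3 D cls mv 50 88 126 := H182.Cw.PW.ck 50 88 37 126 (by decide +kernel)

theorem c50_2 : H182.Cw.PW 4 3 3 D cls mv 50 126 164 := H182.Cw.PW.ck 50 126 37 164 (by decide +kernel)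

theorem c50_3 : H182.Cw.PW 4 3 3 D cls mv 50 164 202 := H182.Cw.PW.ck 50 164 37 202 (by decide +kernel)

theorem c50_4 : H182.Cw.PW 4 3 3 D cls mv 50 202 240 := H182.Cw.PW.ck 50 202 37 240 (by decide +kernel)

theorem c50 : CW 4 3 3 D cls mv 50 (Nat.add 50 1) := (((((c50_0).trans c50_1).trans c50_2).trans c50_3).trans c50_4).cw hnk (by decide +kernel)

theorem cm50 : CW 4 3 3 D cls mv 50 51 := c50

end Vale.Agent.P355.H182K
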