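import Vale.Agent.P355.H182K.D
import Vale.Agent.P355.H182.Cw

namespace Vale.Agent.P355.H182K

open Vale.Agent.P355 Vale.Agent.P355.H147 Vale.Agent.P355.H998.E Vale.Agent.P355.H41.F1

theorem c52_0 : H182.Cw.PW 4 3 3 D cls mv 52 52 89 := H182.Cw.PW.ck 52 52 36 89 (by decide +kernel)

theorem c52_1 : H182.Cw.PW 4 3 3 D cls mv 52 89 127 := H182.Cw.PW.ck 52 89 37 127 (by decide +kernel)

theorem c52_2 : H182.Cw.PW 4 3 3 D cls mv 52 127 164 := H182.Cw.PW.ck 52 127 36 164 (by decide +kernel)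

theorem c52_3 : H182.Cw.PW 4 3 3 D cls mv 52 164 202 := H182.Cw.PW.ck 52 164 37 202 (by decide +kernel)

theorem c52_4 : H182.Cw.PW 4 3 3 D cls mv 52 202 240 := H182.Cw.PW.ck 52 202 37 240 (by decide +kernel)

theorem c52 : CW 4 3 3 D cls mv 52 (Nat.add 52 1) := (((((c52_0).trans c52_1).trans c52_2).trans c52_3).trans c52_4).cw hnk (by decide +kernel)

theorem cm52 : CW 4 3 3 D cls mv 52 53 := c52

end Vale.Agent.P355.H182K
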