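import Vale.Agent.P355.H182K.D
import Vale.Agent.P355.H182.Cw

namespace Vale.Agent.P355.H182K

open Vale.Agent.P355 Vale.Agent.P355.H147 Vale.Agent.P355.H998.E Vale.Agent.P355.H41.F1

theorem c53_0 : H182.Cw.PW 4 3 3 D cls mv 53 53 90 := H182.Cw.PW.ck 53 53 36 90 (by decide +kernel)

theorem c53_1 : H182.Cw.PW 4 3 3 D cls mv 53 90 127 := H182.Cw.PW.ck 53 90 36 127 (by decide +kernel)

theorem c53_2 : H182.Cw.PW 4 3 3 D cls mv 53 127 165 := H182.Cw.PW.ck 53 127 37 165 (by decide +kernel)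

theorem c53_3 : H182.Cw.PW 4 3 3 D cls mv 53 165 202 := H182.Cw.PW.ck 53 165 36 202 (by decide +kernel)

theorem c53_4 : H182.Cw.PW 4 3 3 D cls mv 53 202 240 := H182.Cw.PW.ck 53 202 37 240 (by decide +kernel)

theorem c53 : CW 4 3 3 D cls mv 53 (Nat.add 53 1) := (((((c53_0).trans c53_1).trans c53_2).trans c53_3).trans c53_4).cw hnk (by decide +kernel)

theorem cm53 : CW 4 3 3 D cls mv 53 54 := c53

end Vale.Agent.P355.H182K
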