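import Vale.Agent.P355.H182K.D
import Vale.Agent.P355.H182.Cw

namespace Vale.Agent.P355.H182K

open Vale.Agent.P355 Vale.Agent.P355.H147 Vale.Agent.P355.H998.E Vale.Agent.P355.H41.F1

theorem c54_0 : H182.Cw.PW 4 3 3 D cls mv 54 54 91 := H182.Cw.PW.ck 54 54 36 91 (by decide +kernel)

theorem c54_1 : H182.Cw.PW 4 3 3 D cls mv 54 91 128 := H182.Cw.PW.ck 54 91 36 128 (by decide +kernel)

theorem c54_2 : H182.Cw.PW 4 3 3 D cls mv 54 128 165 := H182.Cw.PW.ck 54 128 36 165 (by decide +kernel)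

theorem c54_3 : H182.Cw.PW 4 3 3 D cls mv 54 165 202 := H182.Cw.PW.ck 54 165 36 202 (by decide +kernel)

theorem c54_4 : H182.Cw.PW 4 3 3 D cls mv 54 202 240 := H182.Cw.PW.ck 54 202 37 240 (by decide +kernel)

theorem c54 : CW 4 3 3 D cls mv 54 (Nat.add 54 1) := (((((c54_0).trans c54_1).trans c54_2).trans c54_3).trans c54_4).cw hnk (by decide +kernel)

theorem cm54 : CW 4 3 3 D cls mv 54 55 := c54

end Vale.Agent.P355.H182K
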