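import Vale.Agent.P355.H182K.D
import Vale.Agent.P355.H182.Cw

namespace Vale.Agent.P355.H182K

open Vale.Agent.P355 Vale.Agent.P355.H147 Vale.Agent.P355.H998.E Vale.Agent.P355.H41.F1

theorem c55_0 : H182.Cw.PW 4 3 3 D cls mv 55 55 92 := H182.Cw.PW.ck 55 55 36 92 (by decide +kernel)

theorem c55_1 : H182.Cw.PW 4 3 3 D cls mv 55 92 129 := H182.Cw.PW.ck 55 92 36 129 (by decide +kernel)

theorem c55_2 : H182.Cw.PW 4 3 3 D cls mv 55 129 166 := H182.Cw.PW.ck 55 129 36 166 (by decide +kernel)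

theorem c55_3 : H182.Cw.PW 4 3 3 D cls mv 55 166 203 := H182.Cw.PW.ck 55 166 36 203 (by decide +kernel)

theorem c55_4 : H182.Cw.PW 4 3 3 D cls mv 55 203 240 := H182.Cw.PW.ck 55 203 36 240 (by decide +kernel)

theorem c55 : CW 4 3 3 D cls mv 55 (Nat.add 55 1) := (((((c55_0).trans c55_1).trans c55_2).trans c55_3).trans c55_4).cw hnk (by decide +kernel)

theorem cm55 : CW 4 3 3 D cls mv 55 56 := c55

end Vale.Agent.P355.H182K
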