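import Vale.Agent.P355.H182K.D
import Vale.Agent.P355.H182.Cw

namespace Vale.Agent.P355.H182K

open Vale.Agent.P355 Vale.Agent.P355.H147 Vale.Agent.P355.H998.E Vale.Agent.P355.H41.F1

theorem c57_0 : H182.Cw.PW 4 3 3 D cls mv 57 57 93 := H182.Cw.PW.ck 57 57 35 93 (by decide +kernel)

theorem c57_1 : H182.Cw.PW 4 3 3 D cls mv 57 93 130 := H182.Cw.PW.ck 57 93 36 130 (by decide +kernel)

theorem c57_2 : H182.Cw.PW 4 3 3 D cls mv 57 130 166 := H182.Cw.PW.ck 57 130 35 166 (by decide +kernel)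

theorem c57_3 : H182.Cw.PW 4 3 3 D cls mv 57 166 203 := H182.Cw.PW.ck 57 166 36 203 (by decide +kernel)

theorem c57_4 : H182.Cw.PW 4 3 3 D cls mv 57 203 240 := H182.Cw.PW.ck 57 203 36 240 (by decide +kernel)

theorem c57 : CW 4 3 3 D cls mv 57 (Nat.add 57 1) := (((((c57_0).trans c57_1).trans c57_2).trans c57_3).trans c57_4).cw hnk (by decide +kernel)

theorem cm57 : CW 4 3 3 D cls mv 57 58 := c57

end Vale.Agent.P355.H182K
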