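import Vale.Agent.P355.H182K.D
import Vale.Agent.P355.H182.Cw

namespace Vale.Agent.P355.H182K

open Vale.Agent.P355 Vale.Agent.P355.H147 Vale.Agent.P355.H998.E Vale.Agent.P355.H41.F1

theorem c58_0 : H182.Cw.PW 4 3 3 D cls mv 58 58 94 := H182.Cw.PW.ck 58 58 35 94 (by decide +kernel)

theorem c58_1 : H182.Cw.PW 4 3 3 D cls mv 58 94 130 := H182.Cw.PW.ck 58 94 35 130 (by decide +kernel)

theorem c58_2 : H182.Cw.PW 4 3 3 D cls mv 58 130 167 := H182.Cw.PW.ck 58 130 36 167 (by decide +kernel)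

theorem c58_3 : H182.Cw.PW 4 3 3 D cls mv 58 167 203 := H182.Cw.PW.ck 58 167 35 203 (by decide +kernel)

theorem c58_4 : H182.Cw.PW 4 3 3 D cls mv 58 203 240 := H182.Cw.PW.ck 58 203 36 240 (by decide +kernel)

theorem c58 : CW 4 3 3 D cls mv 58 (Nat.add 58 1) := (((((c58_0).trans c58_1).trans c58_2).trans c58_3).trans c58_4).cw hnk (by decide +kernel)

theorem cm58 : CW 4 3 3 D cls mv 58 59 := c58

end Vale.Agent.P355.H182K
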