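import Vale.Agent.P355.H182K.D
import Vale.Agent.P355.H182.Cw

namespace Vale.Agent.P355.H182K

open Vale.Agent.P355 Vale.Agent.P355.H147 Vale.Agent.P355.H998.E Vale.Agent.P355.H41.F1

theorem c59_0 : H182.Cw.PW 4 3 3 D cls mv 59 59 95 := H182.Cw.PW.ck 59 59 35 95 (by decide +kernel)

theorem c59_1 : H182.Cw.PW 4 3 3 D cls mv 59 95 131 := H182.Cw.PW.ck 59 95 35 131 (by decide +kernel)

theorem c59_2 : H182.Cw.PW 4 3 3 D cls mv 59 131 167 := H182.Cw.PW.ck 59 131 35 167 (by decide +kernel)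

theorem c59_3 : H182.Cw.PW 4 3 3 D cls mv 59 167 203 := H182.Cw.PW.ck 59 167 35 203 (by decide +kernel)

theorem c59_4 : H182.Cw.PW 4 3 3 D cls mv 59 203 240 := H182.Cw.PW.ck 59 203 36 240 (by decide +kernel)

theorem c59 : CW 4 3 3 D cls mv 59 (Nat.add 59 1) := (((((c59_0).trans c59_1).trans c59_2).trans c59_3).trans c59_4).cw hnk (by decide +kernel)

theorem cm59 : CW 4 3 3 D cls mv 59 60 := c59

end Vale.Agent.P355.H182K
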