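import Vale.Agent.P355.H182K.D
import Vale.Agent.P355.H182.Cw

namespace Vale.Agent.P355.H182K

open Vale.Agent.P355 Vale.Agent.P355.H147 Vale.Agent.P355.H998.E Vale.Agent.P355.H41.F1

theorem c6_0 : H182.Cw.PW 4 3 3 D cls mv 6 6 45 := H182.Cw.PW.ck 6 6 38 45 (by decide +kernel)

theorem c6_1 : H182.Cw.PW 4 3 3 D cls mv 6 45 84 := H182.Cw.PW.ck 6 45 38 84 (by decide +kernel)

theorem c6_2 : H182.Cw.PW 4 3 3 D cls mv 6 84 123 := H182.Cw.PW.ck 6 84 38 123 (by decide +kernel)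

theorem c6_3 : H182.Cw.PW 4 3 3 D cls mv 6 123 162 := H182.Cw.PW.ck 6 123 38 162 (by decide +kernel)

theorem c6_4 : H182.Cw.PW 4 3 3 D cls mv 6 162 201 := H182.Cw.PW.ck 6 162 38 201 (by decide +kernel)

theorem c6_5 : H182.Cw.PW 4 3 3 D cls mv 6 201 240 := H182.Cw.PW.ck 6 201 38 240 (by decide +kernel)

theorem c6 : CW 4 3 3 D cls mv 6 (Nat.add 6 1) := ((((((c6_0).trans c6_1).trans c6_2).trans c6_3).trans c6_4).trans c6_5).cw hnk (by decide +kernel)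

theorem cm6 : CW 4 3 3 D cls mv 6 7 := c6

end Vale.Agent.P355.H182K
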