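import Vale.Agent.P355.H182K.D
import Vale.Agent.P355.H182.Cw

namespace Vale.Agent.P355.H182K

open Vale.Agent.P355 Vale.Agent.P355.H147 Vale.Agent.P355.H998.E Vale.Agent.P355.H41.F1

theorem c61_0 : H182.Cw.PW 4 3 3 D cls mv 61 61 96 := H182.Cw.PW.ck 61 61 34 96 (by decide +kernel)

theorem c61_1 : H182.Cw.PW 4 3 3 D cls mv 61 96 132 := H182.Cw.PW.ck 61 96 35 132 (by decide +kernel)

theorem c61_2 : H182.Cw.PW 4 3 3 D cls mv 61 132 168 := H182.Cw.PW.ck 61 132 35 168 (by decide +kernel)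

theorem c61_3 : H182.Cw.PW 4 3 3 D cls mv 61 168 204 := H182.Cw.PW.ck 61 168 35 204 (by decide +kernel)

theorem c61_4 : H182.Cw.PW 4 3 3 D cls mv 61 204 240 := H182.Cw.PW.ck 61 204 35 240 (by decide +kernel)

theorem c61 : CW 4 3 3 D cls mv 61 (Nat.add 61 1) := (((((c61_0).trans c61_1).trans c61_2).trans c61_3).trans c61_4).cw hnk (by decide +kernel)

theorem cm61 : CW 4 3 3 D cls mv 61 62 := c61

end Vale.Agent.P355.H182K
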