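import Vale.Agent.P355.H182K.D
import Vale.Agent.P355.H182.Cw

namespace Vale.Agent.P355.H182K

open Vale.Agent.P355 Vale.Agent.P355.H147 Vale.Agent.P355.H998.E Vale.Agent.P355.H41.F1

theorem c62_0 : H182.Cw.PW 4 3 3 D cls mv 62 62 97 := H182.Cw.PW.ck 62 62 34 97 (by decide +kernel)

theorem c62_1 : H182.Cw.PW 4 3 3 D cls mv 62 97 133 := H182.Cw.PW.ck 62 97 35 133 (by decide +kernel)

theorem c62_2 : H182.Cw.PW 4 3 3 D cls mv 62 133 168 := H182.Cw.PW.ck 62 133 34 168 (by decide +kernel)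

theorem c62_3 : H182.Cw.PW 4 3 3 D cls mv 62 168 204 := H182.Cw.PW.ck 62 168 35 204 (by decide +kernel)

theorem c62_4 : H182.Cw.PW 4 3 3 D cls mv 62 204 240 := H182.Cw.PW.ck 62 204 35 240 (by decide +kernel)

theorem c62 : CW 4 3 3 D cls mv 62 (Nat.add 62 1) := (((((c62_0).trans c62_1).trans c62_2).trans c62_3).trans c62_4).cw hnk (by decide +kernel)

theorem cm62 : CW 4 3 3 D cls mv 62 63 := c62

end Vale.Agent.P355.H182K
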