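import Vale.Agent.P355.H182K.D
import Vale.Agent.P355.H182.Cw

namespace Vale.Agent.P355.H182K

open Vale.Agent.P355 Vale.Agent.P355.H147 Vale.Agent.P355.H998.E Vale.Agent.P355.H41.F1

theorem c63_0 : H182.Cw.PW 4 3 3 D cls mv 63 63 98 := H182.Cw.PW.ck 63 63 34 98 (by decide +kernel)

theorem c63_1 : H182.Cw.PW 4 3 3 D cls mv 63 98 133 := H182.Cw.PW.ck 63 98 34 133 (by decide +kernel)

theorem c63_2 : H182.Cw.PW 4 3 3 D cls mv 63 133 169 := H182.Cw.PW.ck 63 133 35 169 (by decide +kernel)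

theorem c63_3 : H182.Cw.PW 4 3 3 D cls mv 63 169 204 := H182.Cw.PW.ck 63 169 34 204 (by decide +kernel)

theorem c63_4 : H182.Cw.PW 4 3 3 D cls mv 63 204 240 := H182.Cw.PW.ck 63 204 35 240 (by decide +kernel)

theorem c63 : CW 4 3 3 D cls mv 63 (Nat.add 63 1) := (((((c63_0).trans c63_1).trans c63_2).trans c63_3).trans c63_4).cw hnk (by decide +kernel)

theorem cm63 : CW 4 3 3 D cls mv 63 64 := c63

end Vale.Agent.P355.H182K
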