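import Vale.Agent.P355.H182K.D
import Vale.Agent.P355.H182.Cw

namespace Vale.Agent.P355.H182K

open Vale.Agent.P355 Vale.Agent.P355.H147 Vale.Agent.P355.H998.E Vale.Agent.P355.H41.F1

theorem c64_0 : H182.Cw.PW 4 3 3 D cls mv 64 64 99 := H182.Cw.PW.ck 64 64 34 99 (by decide +kernel)

theorem c64_1 : H182.Cw.PW 4 3 3 D cls mv 64 99 134 := H182.Cw.PW.ck 64 99 34 134 (by decide +kernel)

theorem c64_2 : H182.Cw.PW 4 3 3 D cls mv 64 134 169 := H182.Cw.PW.ck 64 134 34 169 (by decide +kernel)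

theorem c64_3 : H182.Cw.PW 4 3 3 D cls mv 64 169 204 := H182.Cw.PW.ck 64 169 34 204 (by decide +kernel)

theorem c64_4 : H182.Cw.PW 4 3 3 D cls mv 64 204 240 := H182.Cw.PW.ck 64 204 35 240 (by decide +kernel)

theorem c64 : CW 4 3 3 D cls mv 64 (Nat.add 64 1) := (((((c64_0).trans c64_1).trans c64_2).trans c64_3).trans c64_4).cw hnk (by decide +kernel)

theorem cm64 : CW 4 3 3 D cls mv 64 65 := c64

end Vale.Agent.P355.H182K
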