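import Vale.Agent.P355.H182K.D
import Vale.Agent.P355.H182.Cw

namespace Vale.Agent.P355.H182K

open Vale.Agent.P355 Vale.Agent.P355.H147 Vale.Agent.P355.H998.E Vale.Agent.P355.H41.F1

theorem c65_0 : H182.Cw.PW 4 3 3 D cls mv 65 65 100 := H182.Cw.PW.ck 65 65 34 100 (by decide +kernel)

theorem c65_1 : H182.Cw.PW 4 3 3 D cls mv 65 100 135 := H182.Cw.PW.ck 65 100 34 135 (by decide +kernel)

theorem c65_2 : H182.Cw.PW 4 3 3 D cls mv 65 135 170 := H182.Cw.PW.ck 65 135 34 170 (by decide +kernel)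

theorem c65_3 : H182.Cw.PW 4 3 3 D cls mv 65 170 205 := H182.Cw.PW.ck 65 170 34 205 (by decide +kernel)

theorem c65_4 : H182.Cw.PW 4 3 3 D cls mv 65 205 240 := H182.Cw.PW.ck 65 205 34 240 (by decide +kernel)

theorem c65 : CW 4 3 3 D cls mv 65 (Nat.add 65 1) := (((((c65_0).trans c65_1).trans c65_2).trans c65_3).trans c65_4).cw hnk (by decide +kernel)

theorem cm65 : CW 4 3 3 D cls mv 65 66 := c65

end Vale.Agent.P355.H182K
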