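import Vale.Agent.P355.H182K.D
import Vale.Agent.P355.H182.Cw

namespace Vale.Agent.P355.H182K

open Vale.Agent.P355 Vale.Agent.P355.H147 Vale.Agent.P355.H998.E Vale.Agent.P355.H41.F1

theorem c66_0 : H182.Cw.PW 4 3 3 D cls mv 66 66 100 := H182.Cw.PW.ck 66 66 33 100 (by decide +kernel)

theorem c66_1 : H182.Cw.PW 4 3 3 D cls mv 66 100 135 := H182.Cw.PW.ck 66 100 34 135 (by decide +kernel)

theorem c66_2 : H182.Cw.PW 4 3 3 D cls mv 66 135 170 := H182.Cw.PW.ck 66 135 34 170 (by decide +kernel)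

theorem c66_3 : H182.Cw.PW 4 3 3 D cls mv 66 170 205 := H182.Cw.PW.ck 66 170 34 205 (by decide +kernel)

theorem c66_4 : H182.Cw.PW 4 3 3 D cls mv 66 205 240 := H182.Cw.PW.ck 66 205 34 240 (by decide +kernel)

theorem c66 : CW 4 3 3 D cls mv 66 (Nat.add 66 1) := (((((c66_0).trans c66_1).trans c66_2).trans c66_3).trans c66_4).cw hnk (by decide +kernel)

theorem cm66 : CW 4 3 3 D cls mv 66 67 := c66

end Vale.Agent.P355.H182K
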