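import Vale.Agent.P355.H182K.D
import Vale.Agent.P355.H182.Cw

namespace Vale.Agent.P355.H182K

open Vale.Agent.P355 Vale.Agent.P355.H147 Vale.Agent.P355.H998.E Vale.Agent.P355.H41.F1

theorem c67_0 : H182.Cw.PW 4 3 3 D cls mv 67 67 101 := H182.Cw.PW.ck 67 67 33 101 (by decide +kernel)

theorem c67_1 : H182.Cw.PW 4 3 3 D cls mv 67 101 136 := H182.Cw.PW.ck 67 101 34 136 (by decide +kernel)

theorem c67_2 : H182.Cw.PW 4 3 3 D cls mv 67 136 170 := H182.Cw.PW.ck 67 136 33 170 (by decide +kernel)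

theorem c67_3 : H182.Cw.PW 4 3 3 D cls mv 67 170 205 := H182.Cw.PW.ck 67 170 34 205 (by decide +kernel)

theorem c67_4 : H182.Cw.PW 4 3 3 D cls mv 67 205 240 := H182.Cw.PW.ck 67 205 34 240 (by decide +kernel)

theorem c67 : CW 4 3 3 D cls mv 67 (Nat.add 67 1) := (((((c67_0).trans c67_1).trans c67_2).trans c67_3).trans c67_4).cw hnk (by decide +kernel)

theorem cm67 : CW 4 3 3 D cls mv 67 68 := c67

end Vale.Agent.P355.H182K
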