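import Vale.Agent.P355.H182K.D
import Vale.Agent.P355.H182.Cw

namespace Vale.Agent.P355.H182K

open Vale.Agent.P355 Vale.Agent.P355.H147 Vale.Agent.P355.H998.E Vale.Agent.P355.H41.F1

theorem c68_0 : H182.Cw.PW 4 3 3 D cls mv 68 68 102 := H182.Cw.PW.ck 68 68 33 102 (by decide +kernel)

theorem c68_1 : H182.Cw.PW 4 3 3 D cls mv 68 102 136 := H182.Cw.PW.ck 68 102 33 136 (by decide +kernel)

theorem c68_2 : H182.Cw.PW 4 3 3 D cls mv 68 136 171 := H182.Cw.PW.ck 68 136 34 171 (by decide +kernel)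

theorem c68_3 : H182.Cw.PW 4 3 3 D cls mv 68 171 205 := H182.Cw.PW.ck 68 171 33 205 (by decide +kernel)

theorem c68_4 : H182.Cw.PW 4 3 3 D cls mv 68 205 240 := H182.Cw.PW.ck 68 205 34 240 (by decide +kernel)

theorem c68 : CW 4 3 3 D cls mv 68 (Nat.add 68 1) := (((((c68_0).trans c68_1).trans c68_2).trans c68_3).trans c68_4).cw hnk (by decide +kernel)

theorem cm68 : CW 4 3 3 D cls mv 68 69 := c68

end Vale.Agent.P355.H182K
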