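import Vale.Agent.P355.H182K.D
import Vale.Agent.P355.H182.Cw

namespace Vale.Agent.P355.H182K

open Vale.Agent.P355 Vale.Agent.P355.H147 Vale.Agent.P355.H998.E Vale.Agent.P355.H41.F1

theorem c69_0 : H182.Cw.PW 4 3 3 D cls mv 69 69 103 := H182.Cw.PW.ck 69 69 33 103 (by decide +kernel)

theorem c69_1 : H182.Cw.PW 4 3 3 D cls mv 69 103 137 := H182.Cw.PW.ck 69 103 33 137 (by decide +kernel)

theorem c69_2 : H182.Cw.PW 4 3 3 D cls mv 69 137 171 := H182.Cw.PW.ck 69 137 33 171 (by decide +kernel)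

theorem c69_3 : H182.Cw.PW 4 3 3 D cls mv 69 171 205 := H182.Cw.PW.ck 69 171 33 205 (by decide +kernel)

theorem c69_4 : H182.Cw.PW 4 3 3 D cls mv 69 205 240 := H182.Cw.PW.ck 69 205 34 240 (by decide +kernel)

theorem c69 : CW 4 3 3 D cls mv 69 (Nat.add 69 1) := (((((c69_0).trans c69_1).trans c69_2).trans c69_3).trans c69_4).cw hnk (by decide +kernel)

theorem cm69 : CW 4 3 3 D cls mv 69 70 := c69

end Vale.Agent.P355.H182K
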