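import Vale.Agent.P355.H182K.D
import Vale.Agent.P355.H182.Cw

namespace Vale.Agent.P355.H182K

open Vale.Agent.P355 Vale.Agent.P355.H147 Vale.Agent.P355.H998.E Vale.Agent.P355.H41.F1

theorem c7_0 : H182.Cw.PW 4 3 3 D cls mv 7 7 45 := H182.Cw.PW.ck 7 7 37 45 (by decide +kernel)

theorem c7_1 : H182.Cw.PW 4 3 3 D cls mv 7 45 84 := H182.Cw.PW.ck 7 45 38 84 (by decide +kernel)

theorem c7_2 : H182.Cw.PW 4 3 3 D cls mv 7 84 123 := H182.Cw.PW.ck 7 84 38 123 (by decide +kernel)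

theorem c7_3 : H182.Cw.PW 4 3 3 D cls mv 7 123 162 := H182.Cw.PW.ck 7 123 38 162 (by decide +kernel)

theorem c7_4 : H182.Cw.PW 4 3 3 D cls mv 7 162 201 := H182.Cw.PW.ck 7 162 38 201 (by decide +kernel)

theorem c7_5 : H182.Cw.PW 4 3 3 D cls mv 7 201 240 := H182.Cw.PW.ck 7 201 38 240 (by decide +kernel)

theorem c7 : CW 4 3 3 D cls mv 7 (Nat.add 7 1) := ((((((c7_0).trans c7_1).trans c7_2).trans c7_3).trans c7_4).trans c7_5).cw hnk (by decide +kernel)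

theorem cm7 : CW 4 3 3 D cls mv 7 8 := c7

end Vale.Agent.P355.H182K
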