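import Vale.Agent.P355.H182K.D
import Vale.Agent.P355.H182.Cw

namespace Vale.Agent.P355.H182K

open Vale.Agent.P355 Vale.Agent.P355.H147 Vale.Agent.P355.H998.E Vale.Agent.P355.H41.F1

theorem c70_0 : H182.Cw.PW 4 3 3 D cls mv 70 70 104 := H182.Cw.PW.ck 70 70 33 104 (by decide +kernel)

theorem c70_1 : H182.Cw.PW 4 3 3 D cls mv 70 104 138 := H182.Cw.PW.ck 70 104 33 138 (by decide +kernel)

theorem c70_2 : H182.Cw.PW 4 3 3 D cls mv 70 138 172 := H182.Cw.PW.ck 70 138 33 172 (by decide +kernel)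

theorem c70_3 : H182.Cw.PW 4 3 3 D cls mv 70 172 206 := H182.Cw.PW.ck 70 172 33 206 (by decide +kernel)

theorem c70_4 : H182.Cw.PW 4 3 3 D cls mv 70 206 240 := H182.Cw.PW.ck 70 206 33 240 (by decide +kernel)

theorem c70 : CW 4 3 3 D cls mv 70 (Nat.add 70 1) := (((((c70_0).trans c70_1).trans c70_2).trans c70_3).trans c70_4).cw hnk (by decide +kernel)

theorem cm70 : CW 4 3 3 D cls mv 70 71 := c70

end Vale.Agent.P355.H182K
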