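import Vale.Agent.P355.H182K.D
import Vale.Agent.P355.H182.Cw

namespace Vale.Agent.P355.H182K

open Vale.Agent.P355 Vale.Agent.P355.H147 Vale.Agent.P355.H998.E Vale.Agent.P355.H41.F1

theorem c72_0 : H182.Cw.PW 4 3 3 D cls mv 72 72 105 := H182.Cw.PW.ck 72 72 32 105 (by decide +kernel)

theorem c72_1 : H182.Cw.PW 4 3 3 D cls mv 72 105 139 := H182.Cw.PW.ck 72 105 33 139 (by decide +kernel)

theorem c72_2 : H182.Cw.PW 4 3 3 D cls mv 72 139 172 := H182.Cw.PW.ck 72 139 32 172 (by decide +kernel)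

theorem c72_3 : H182.Cw.PW 4 3 3 D cls mv 72 172 206 := H182.Cw.PW.ck 72 172 33 206 (by decide +kernel)

theorem c72_4 : H182.Cw.PW 4 3 3 D cls mv 72 206 240 := H182.Cw.PW.ck 72 206 33 240 (by decide +kernel)

theorem c72 : CW 4 3 3 D cls mv 72 (Nat.add 72 1) := (((((c72_0).trans c72_1).trans c72_2).trans c72_3).trans c72_4).cw hnk (by decide +kernel)

theorem cm72 : CW 4 3 3 D cls mv 72 73 := c72

end Vale.Agent.P355.H182K
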