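import Vale.Agent.P355.H182K.D
import Vale.Agent.P355.H182.Cw

namespace Vale.Agent.P355.H182K

open Vale.Agent.P355 Vale.Agent.P355.H147 Vale.Agent.P355.H998.E Vale.Agent.P355.H41.F1

theorem c73_0 : H182.Cw.PW 4 3 3 D cls mv 73 73 106 := H182.Cw.PW.ck 73 73 32 106 (by decide +kernel)

theorem c73_1 : H182.Cw.PW 4 3 3 D cls mv 73 106 139 := H182.Cw.PW.ck 73 106 32 139 (by decide +kernel)

theorem c73_2 : H182.Cw.PW 4 3 3 D cls mv 73 139 173 := H182.Cw.PW.ck 73 139 33 173 (by decide +kernel)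

theorem c73_3 : H182.Cw.PW 4 3 3 D cls mv 73 173 206 := H182.Cw.PW.ck 73 173 32 206 (by decide +kernel)

theorem c73_4 : H182.Cw.PW 4 3 3 D cls mv 73 206 240 := H182.Cw.PW.ck 73 206 33 240 (by decide +kernel)

theorem c73 : CW 4 3 3 D cls mv 73 (Nat.add 73 1) := (((((c73_0).trans c73_1).trans c73_2).trans c73_3).trans c73_4).cw hnk (by decide +kernel)

theorem cm73 : CW 4 3 3 D cls mv 73 74 := c73

end Vale.Agent.P355.H182K
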