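import Vale.Agent.P355.H182K.D
import Vale.Agent.P355.H182.Cw

namespace Vale.Agent.P355.H182K

open Vale.Agent.P355 Vale.Agent.P355.H147 Vale.Agent.P355.H998.E Vale.Agent.P355.H41.F1

theorem c77_0 : H182.Cw.PW 4 3 3 D cls mv 77 77 117 := H182.Cw.PW.ck 77 77 39 117 (by decide +kernel)

theorem c77_1 : H182.Cw.PW 4 3 3 D cls mv 77 117 158 := H182.Cw.PW.ck 77 117 40 158 (by decide +kernel)

theorem c77_2 : H182.Cw.PW 4 3 3 D cls mv 77 158 199 := H182.Cw.PW.ck 77 158 40 199 (by decide +kernel)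

theorem c77_3 : H182.Cw.PW 4 3 3 D cls mv 77 199 240 := H182.Cw.PW.ck 77 199 40 240 (by decide +kernel)

theorem c77 : CW 4 3 3 D cls mv 77 (Nat.add 77 1) := ((((c77_0).trans c77_1).trans c77_2).trans c77_3).cw hnk (by decide +kernel)

theorem cm77 : CW 4 3 3 D cls mv 77 78 := c77

end Vale.Agent.P355.H182K
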