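import Vale.Agent.P355.H182K.D
import Vale.Agent.P355.H182.Cw

namespace Vale.Agent.P355.H182K

open Vale.Agent.P355 Vale.Agent.P355.H147 Vale.Agent.P355.H998.E Vale.Agent.P355.H41.F1

theorem c78_0 : H182.Cw.PW 4 3 3 D cls mv 78 78 118 := H182.Cw.PW.ck 78 78 39 118 (by decide +kernel)

theorem c78_1 : H182.Cw.PW 4 3 3 D cls mv 78 118 159 := H182.Cw.PW.ck 78 118 40 159 (by decide +kernel)

theorem c78_2 : H182.Cw.PW 4 3 3 D cls mv 78 159 199 := H182.Cw.PW.ck 78 159 39 199 (by decide +kernel)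

theorem c78_3 : H182.Cw.PW 4 3 3 D cls mv 78 199 240 := H182.Cw.PW.ck 78 199 40 240 (by decide +kernel)

theorem c78 : CW 4 3 3 D cls mv 78 (Nat.add 78 1) := ((((c78_0).trans c78_1).trans c78_2).trans c78_3).cw hnk (by decide +kernel)

theorem cm78 : CW 4 3 3 D cls mv 78 79 := c78

end Vale.Agent.P355.H182K
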