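import Vale.Agent.P355.H182K.D
import Vale.Agent.P355.H182.Cw

namespace Vale.Agent.P355.H182K

open Vale.Agent.P355 Vale.Agent.P355.H147 Vale.Agent.P355.H998.E Vale.Agent.P355.H41.F1

theorem c79_0 : H182.Cw.PW 4 3 3 D cls mv 79 79 119 := H182.Cw.PW.ck 79 79 39 119 (by decide +kernel)

theorem c79_1 : H182.Cw.PW 4 3 3 D cls mv 79 119 159 := H182.Cw.PW.ck 79 119 39 159 (by decide +kernel)

theorem c79_2 : H182.Cw.PW 4 3 3 D cls mv 79 159 199 := H182.Cw.PW.ck 79 159 39 199 (by decide +kernel)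

theorem c79_3 : H182.Cw.PW 4 3 3 D cls mv 79 199 240 := H182.Cw.PW.ck 79 199 40 240 (by decide +kernel)

theorem c79 : CW 4 3 3 D cls mv 79 (Nat.add 79 1) := ((((c79_0).trans c79_1).trans c79_2).trans c79_3).cw hnk (by decide +kernel)

theorem cm79 : CW 4 3 3 D cls mv 79 80 := c79

end Vale.Agent.P355.H182K
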