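import Vale.Agent.P355.H182K.D
import Vale.Agent.P355.H182.Cw

namespace Vale.Agent.P355.H182K

open Vale.Agent.P355 Vale.Agent.P355.H147 Vale.Agent.P355.H998.E Vale.Agent.P355.H41.F1

theorem c8_0 : H182.Cw.PW 4 3 3 D cls mv 8 8 46 := H182.Cw.PW.ck 8 8 37 46 (by decide +kernel)

theorem c8_1 : H182.Cw.PW 4 3 3 D cls mv 8 46 85 := H182.Cw.PW.ck 8 46 38 85 (by decide +kernel)

theorem c8_2 : H182.Cw.PW 4 3 3 D cls mv 8 85 124 := H182.Cw.PW.ck 8 85 38 124 (by decide +kernel)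

theorem c8_3 : H182.Cw.PW 4 3 3 D cls mv 8 124 162 := H182.Cw.PW.ck 8 124 37 162 (by decide +kernel)

theorem c8_4 : H182.Cw.PW 4 3 3 D cls mv 8 162 201 := H182.Cw.PW.ck 8 162 38 201 (by decide +kernel)

theorem c8_5 : H182.Cw.PW 4 3 3 D cls mv 8 201 240 := H182.Cw.PW.ck 8 201 38 240 (by decide +kernel)

theorem c8 : CW 4 3 3 D cls mv 8 (Nat.add 8 1) := ((((((c8_0).trans c8_1).trans c8_2).trans c8_3).trans c8_4).trans c8_5).cw hnk (by decide +kernel)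

theorem cm8 : CW 4 3 3 D cls mv 8 9 := c8

end Vale.Agent.P355.H182K
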