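import Vale.Agent.P355.H182K.D
import Vale.Agent.P355.H182.Cw

namespace Vale.Agent.P355.H182K

open Vale.Agent.P355 Vale.Agent.P355.H147 Vale.Agent.P355.H998.E Vale.Agent.P355.H41.F1

theorem c81_0 : H182.Cw.PW 4 3 3 D cls mv 81 81 120 := H182.Cw.PW.ck 81 81 38 120 (by decide +kernel)

theorem c81_1 : H182.Cw.PW 4 3 3 D cls mv 81 120 160 := H182.Cw.PW.ck 81 120 39 160 (by decide +kernel)

theorem c81_2 : H182.Cw.PW 4 3 3 D cls mv 81 160 200 := H182.Cw.PW.ck 81 160 39 200 (by decide +kernel)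

theorem c81_3 : H182.Cw.PW 4 3 3 D cls mv 81 200 240 := H182.Cw.PW.ck 81 200 39 240 (by decide +kernel)

theorem c81 : CW 4 3 3 D cls mv 81 (Nat.add 81 1) := ((((c81_0).trans c81_1).trans c81_2).trans c81_3).cw hnk (by decide +kernel)

theorem cm81 : CW 4 3 3 D cls mv 81 82 := c81

end Vale.Agent.P355.H182K
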