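import Vale.Agent.P355.H182K.D
import Vale.Agent.P355.H182.Cw

namespace Vale.Agent.P355.H182K

open Vale.Agent.P355 Vale.Agent.P355.H147 Vale.Agent.P355.H998.E Vale.Agent.P355.H41.F1

theorem c82_0 : H182.Cw.PW 4 3 3 D cls mv 82 82 121 := H182.Cw.PW.ck 82 82 38 121 (by decide +kernel)

theorem c82_1 : H182.Cw.PW 4 3 3 D cls mv 82 121 161 := H182.Cw.PW.ck 82 121 39 161 (by decide +kernel)

theorem c82_2 : H182.Cw.PW 4 3 3 D cls mv 82 161 200 := H182.Cw.PW.ck 82 161 38 200 (by decide +kernel)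

theorem c82_3 : H182.Cw.PW 4 3 3 D cls mv 82 200 240 := H182.Cw.PW.ck 82 200 39 240 (by decide +kernel)

theorem c82 : CW 4 3 3 D cls mv 82 (Nat.add 82 1) := ((((c82_0).trans c82_1).trans c82_2).trans c82_3).cw hnk (by decide +kernel)

theorem cm82 : CW 4 3 3 D cls mv 82 83 := c82

end Vale.Agent.P355.H182K
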