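import Vale.Agent.P355.H182K.D
import Vale.Agent.P355.H182.Cw

namespace Vale.Agent.P355.H182K

open Vale.Agent.P355 Vale.Agent.P355.H147 Vale.Agent.P355.H998.E Vale.Agent.P355.H41.F1

theorem c83_0 : H182.Cw.PW 4 3 3 D cls mv 83 83 122 := H182.Cw.PW.ck 83 83 38 122 (by decide +kernel)

theorem c83_1 : H182.Cw.PW 4 3 3 D cls mv 83 122 161 := H182.Cw.PW.ck 83 122 38 161 (by decide +kernel)

theorem c83_2 : H182.Cw.PW 4 3 3 D cls mv 83 161 200 := H182.Cw.PW.ck 83 161 38 200 (by decide +kernel)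

theorem c83_3 : H182.Cw.PW 4 3 3 D cls mv 83 200 240 := H182.Cw.PW.ck 83 200 39 240 (by decide +kernel)

theorem c83 : CW 4 3 3 D cls mv 83 (Nat.add 83 1) := ((((c83_0).trans c83_1).trans c83_2).trans c83_3).cw hnk (by decide +kernel)

theorem cm83 : CW 4 3 3 D cls mv 83 84 := c83

end Vale.Agent.P355.H182K
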