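import Vale.Agent.P355.H182K.D
import Vale.Agent.P355.H182.Cw

namespace Vale.Agent.P355.H182K

open Vale.Agent.P355 Vale.Agent.P355.H147 Vale.Agent.P355.H998.E Vale.Agent.P355.H41.F1

theorem c85_0 : H182.Cw.PW 4 3 3 D cls mv 85 85 123 := H182.Cw.PW.ck 85 85 37 123 (by decide +kernel)

theorem c85_1 : H182.Cw.PW 4 3 3 D cls mv 85 123 162 := H182.Cw.PW.ck 85 123 38 162 (by decide +kernel)

theorem c85_2 : H182.Cw.PW 4 3 3 D cls mv 85 162 201 := H182.Cw.PW.ck 85 162 38 201 (by decide +kernel)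

theorem c85_3 : H182.Cw.PW 4 3 3 D cls mv 85 201 240 := H182.Cw.PW.ck 85 201 38 240 (by decide +kernel)

theorem c85 : CW 4 3 3 D cls mv 85 (Nat.add 85 1) := ((((c85_0).trans c85_1).trans c85_2).trans c85_3).cw hnk (by decide +kernel)

theorem cm85 : CW 4 3 3 D cls mv 85 86 := c85

end Vale.Agent.P355.H182K
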