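import Vale.Agent.P355.H182K.D
import Vale.Agent.P355.H182.Cw

namespace Vale.Agent.P355.H182K

open Vale.Agent.P355 Vale.Agent.P355.H147 Vale.Agent.P355.H998.E Vale.Agent.P355.H41.F1

theorem c86_0 : H182.Cw.PW 4 3 3 D cls mv 86 86 124 := H182.Cw.PW.ck 86 86 37 124 (by decide +kernel)

theorem c86_1 : H182.Cw.PW 4 3 3 D cls mv 86 124 163 := H182.Cw.PW.ck 86 124 38 163 (by decide +kernel)

theorem c86_2 : H182.Cw.PW 4 3 3 D cls mv 86 163 201 := H182.Cw.PW.ck 86 163 37 201 (by decide +kernel)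

theorem c86_3 : H182.Cw.PW 4 3 3 D cls mv 86 201 240 := H182.Cw.PW.ck 86 201 38 240 (by decide +kernel)

theorem c86 : CW 4 3 3 D cls mv 86 (Nat.add 86 1) := ((((c86_0).trans c86_1).trans c86_2).trans c86_3).cw hnk (by decide +kernel)

theorem cm86 : CW 4 3 3 D cls mv 86 87 := c86

end Vale.Agent.P355.H182K
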