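import Vale.Agent.P355.H182K.D
import Vale.Agent.P355.H182.Cw

namespace Vale.Agent.P355.H182K

open Vale.Agent.P355 Vale.Agent.P355.H147 Vale.Agent.P355.H998.E Vale.Agent.P355.H41.F1

theorem c87_0 : H182.Cw.PW 4 3 3 D cls mv 87 87 125 := H182.Cw.PW.ck 87 87 37 125 (by decide +kernel)

theorem c87_1 : H182.Cw.PW 4 3 3 D cls mv 87 125 163 := H182.Cw.PW.ck 87 125 37 163 (by decide +kernel)

theorem c87_2 : H182.Cw.PW 4 3 3 D cls mv 87 163 201 := H182.Cw.PW.ck 87 163 37 201 (by decide +kernel)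

theorem c87_3 : H182.Cw.PW 4 3 3 D cls mv 87 201 240 := H182.Cw.PW.ck 87 201 38 240 (by decide +kernel)

theorem c87 : CW 4 3 3 D cls mv 87 (Nat.add 87 1) := ((((c87_0).trans c87_1).trans c87_2).trans c87_3).cw hnk (by decide +kernel)

theorem cm87 : CW 4 3 3 D cls mv 87 88 := c87

end Vale.Agent.P355.H182K
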