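import Vale.Agent.P355.H182K.D
import Vale.Agent.P355.H182.Cw

namespace Vale.Agent.P355.H182K

open Vale.Agent.P355 Vale.Agent.P355.H147 Vale.Agent.P355.H998.E Vale.Agent.P355.H41.F1

theorem c88_0 : H182.Cw.PW 4 3 3 D cls mv 88 88 126 := H182.Cw.PW.ck 88 88 37 126 (by decide +kernel)

theorem c88_1 : H182.Cw.PW 4 3 3 D cls mv 88 126 164 := H182.Cw.PW.ck 88 126 37 164 (by decide +kernel)

theorem c88_2 : H182.Cw.PW 4 3 3 D cls mv 88 164 202 := H182.Cw.PW.ck 88 164 37 202 (by decide +kernel)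

theorem c88_3 : H182.Cw.PW 4 3 3 D cls mv 88 202 240 := H182.Cw.PW.ck 88 202 37 240 (by decide +kernel)

theorem c88 : CW 4 3 3 D cls mv 88 (Nat.add 88 1) := ((((c88_0).trans c88_1).trans c88_2).trans c88_3).cw hnk (by decide +kernel)

theorem cm88 : CW 4 3 3 D cls mv 88 89 := c88

end Vale.Agent.P355.H182K
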