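import Vale.Agent.P355.H182K.D
import Vale.Agent.P355.H182.Cw

namespace Vale.Agent.P355.H182K

open Vale.Agent.P355 Vale.Agent.P355.H147 Vale.Agent.P355.H998.E Vale.Agent.P355.H41.F1

theorem c9_0 : H182.Cw.PW 4 3 3 D cls mv 9 9 47 := H182.Cw.PW.ck 9 9 37 47 (by decide +kernel)

theorem c9_1 : H182.Cw.PW 4 3 3 D cls mv 9 47 86 := H182.Cw.PW.ck 9 47 38 86 (by decide +kernel)

theorem c9_2 : H182.Cw.PW 4 3 3 D cls mv 9 86 124 := H182.Cw.PW.ck 9 86 37 124 (by decide +kernel)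

theorem c9_3 : H182.Cw.PW 4 3 3 D cls mv 9 124 163 := H182.Cw.PW.ck 9 124 38 163 (by decide +kernel)

theorem c9_4 : H182.Cw.PW 4 3 3 D cls mv 9 163 201 := H182.Cw.PW.ck 9 163 37 201 (by decide +kernel)

theorem c9_5 : H182.Cw.PW 4 3 3 D cls mv 9 201 240 := H182.Cw.PW.ck 9 201 38 240 (by decide +kernel)

theorem c9 : CW 4 3 3 D cls mv 9 (Nat.add 9 1) := ((((((c9_0).trans c9_1).trans c9_2).trans c9_3).trans c9_4).trans c9_5).cw hnk (by decide +kernel)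

theorem cm9 : CW 4 3 3 D cls mv 9 10 := c9

end Vale.Agent.P355.H182K
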