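import Vale.Agent.P355.H182K.D
import Vale.Agent.P355.H182.Cw

namespace Vale.Agent.P355.H182K

open Vale.Agent.P355 Vale.Agent.P355.H147 Vale.Agent.P355.H998.E Vale.Agent.P355.H41.F1

theorem c91_0 : H182.Cw.PW 4 3 3 D cls mv 91 91 128 := H182.Cw.PW.ck 91 91 36 128 (by decide +kernel)

theorem c91_1 : H182.Cw.PW 4 3 3 D cls mv 91 128 165 := H182.Cw.PW.ck 91 128 36 165 (by decide +kernel)

theorem c91_2 : H182.Cw.PW 4 3 3 D cls mv 91 165 202 := H182.Cw.PW.ck 91 165 36 202 (by decide +kernel)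

theorem c91_3 : H182.Cw.PW 4 3 3 D cls mv 91 202 240 := H182.Cw.PW.ck 91 202 37 240 (by decide +kernel)

theorem c91 : CW 4 3 3 D cls mv 91 (Nat.add 91 1) := ((((c91_0).trans c91_1).trans c91_2).trans c91_3).cw hnk (by decide +kernel)

theorem cm91 : CW 4 3 3 D cls mv 91 92 := c91

end Vale.Agent.P355.H182K
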