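import Vale.Agent.P355.H182K.D
import Vale.Agent.P355.H182.Cw

namespace Vale.Agent.P355.H182K

open Vale.Agent.P355 Vale.Agent.P355.H147 Vale.Agent.P355.H998.E Vale.Agent.P355.H41.F1

theorem c94_0 : H182.Cw.PW 4 3 3 D cls mv 94 94 130 := H182.Cw.PW.ck 94 94 35 130 (by decide +kernel)

theorem c94_1 : H182.Cw.PW 4 3 3 D cls mv 94 130 167 := H182.Cw.PW.ck 94 130 36 167 (by decide +kernel)

theorem c94_2 : H182.Cw.PW 4 3 3 D cls mv 94 167 203 := H182.Cw.PW.ck 94 167 35 203 (by decide +kernel)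

theorem c94_3 : H182.Cw.PW 4 3 3 D cls mv 94 203 240 := H182.Cw.PW.ck 94 203 36 240 (by decide +kernel)

theorem c94 : CW 4 3 3 D cls mv 94 (Nat.add 94 1) := ((((c94_0).trans c94_1).trans c94_2).trans c94_3).cw hnk (by decide +kernel)

theorem cm94 : CW 4 3 3 D cls mv 94 95 := c94

end Vale.Agent.P355.H182K
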