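import Vale.Agent.P355.H182K.D
import Vale.Agent.P355.H182.Cw

namespace Vale.Agent.P355.H182K

open Vale.Agent.P355 Vale.Agent.P355.H147 Vale.Agent.P355.H998.E Vale.Agent.P355.H41.F1

theorem c95_0 : H182.Cw.PW 4 3 3 D cls mv 95 95 131 := H182.Cw.PW.ck 95 95 35 131 (by decide +kernel)

theorem c95_1 : H182.Cw.PW 4 3 3 D cls mv 95 131 167 := H182.Cw.PW.ck 95 131 35 167 (by decide +kernel)

theorem c95_2 : H182.Cw.PW 4 3 3 D cls mv 95 167 203 := H182.Cw.PW.ck 95 167 35 203 (by decide +kernel)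

theorem c95_3 : H182.Cw.PW 4 3 3 D cls mv 95 203 240 := H182.Cw.PW.ck 95 203 36 240 (by decide +kernel)

theorem c95 : CW 4 3 3 D cls mv 95 (Nat.add 95 1) := ((((c95_0).trans c95_1).trans c95_2).trans c95_3).cw hnk (by decide +kernel)

theorem cm95 : CW 4 3 3 D cls mv 95 96 := c95

end Vale.Agent.P355.H182K
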