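import Vale.Agent.P355.H182K.D
import Vale.Agent.P355.H182.Cw

namespace Vale.Agent.P355.H182K

open Vale.Agent.P355 Vale.Agent.P355.H147 Vale.Agent.P355.H998.E Vale.Agent.P355.H41.F1

theorem c96_0 : H182.Cw.PW 4 3 3 D cls mv 96 96 132 := H182.Cw.PW.ck 96 96 35 132 (by decide +kernel)

theorem c96_1 : H182.Cw.PW 4 3 3 D cls mv 96 132 168 := H182.Cw.PW.ck 96 132 35 168 (by decide +kernel)

theorem c96_2 : H182.Cw.PW 4 3 3 D cls mv 96 168 204 := H182.Cw.PW.ck 96 168 35 204 (by decide +kernel)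

theorem c96_3 : H182.Cw.PW 4 3 3 D cls mv 96 204 240 := H182.Cw.PW.ck 96 204 35 240 (by decide +kernel)

theorem c96 : CW 4 3 3 D cls mv 96 (Nat.add 96 1) := ((((c96_0).trans c96_1).trans c96_2).trans c96_3).cw hnk (by decide +kernel)

theorem cm96 : CW 4 3 3 D cls mv 96 97 := c96

end Vale.Agent.P355.H182K
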