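import Vale.Agent.P355.H182K.D
import Vale.Agent.P355.H182.Cw

namespace Vale.Agent.P355.H182K

open Vale.Agent.P355 Vale.Agent.P355.H147 Vale.Agent.P355.H998.E Vale.Agent.P355.H41.F1

theorem c98_0 : H182.Cw.PW 4 3 3 D cls mv 98 98 133 := H182.Cw.PW.ck 98 98 34 133 (by decide +kernel)

theorem c98_1 : H182.Cw.PW 4 3 3 D cls mv 98 133 169 := H182.Cw.PW.ck 98 133 35 169 (by decide +kernel)

theorem c98_2 : H182.Cw.PW 4 3 3 D cls mv 98 169 204 := H182.Cw.PW.ck 98 169 34 204 (by decide +kernel)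

theorem c98_3 : H182.Cw.PW 4 3 3 D cls mv 98 204 240 := H182.Cw.PW.ck 98 204 35 240 (by decide +kernel)

theorem c98 : CW 4 3 3 D cls mv 98 (Nat.add 98 1) := ((((c98_0).trans c98_1).trans c98_2).trans c98_3).cw hnk (by decide +kernel)

theorem cm98 : CW 4 3 3 D cls mv 98 99 := c98

end Vale.Agent.P355.H182K
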