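import Vale.Agent.P355.H182K.D
import Vale.Agent.P355.H182.Cw

namespace Vale.Agent.P355.H182K

open Vale.Agent.P355 Vale.Agent.P355.H147 Vale.Agent.P355.H998.E Vale.Agent.P355.H41.F1

theorem c99_0 : H182.Cw.PW 4 3 3 D cls mv 99 99 134 := H182.Cw.PW.ck 99 99 34 134 (by decide +kernel)

theorem c99_1 : H182.Cw.PW 4 3 3 D cls mv 99 134 169 := H182.Cw.PW.ck 99 134 34 169 (by decide +kernel)

theorem c99_2 : H182.Cw.PW 4 3 3 D cls mv 99 169 204 := H182.Cw.PW.ck 99 169 34 204 (by decide +kernel)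

theorem c99_3 : H182.Cw.PW 4 3 3 D cls mv 99 204 240 := H182.Cw.PW.ck 99 204 35 240 (by decide +kernel)

theorem c99 : CW 4 3 3 D cls mv 99 (Nat.add 99 1) := ((((c99_0).trans c99_1).trans c99_2).trans c99_3).cw hnk (by decide +kernel)

theorem cm99 : CW 4 3 3 D cls mv 99 100 := c99

end Vale.Agent.P355.H182K
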