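import Vale.Agent.P355.H182K.C0
import Vale.Agent.P355.H182K.C1
import Vale.Agent.P355.H182K.C2
import Vale.Agent.P355.H182K.C3
import Vale.Agent.P355.H182K.C4
import Vale.Agent.P355.H182K.C5
import Vale.Agent.P355.H182K.C6
import Vale.Agent.P355.H182K.C7
import Vale.Agent.P355.H182K.C8
import Vale.Agent.P355.H182K.C9
import Vale.Agent.P355.H182K.C10
import Vale.Agent.P355.H182K.C11
import Vale.Agent.P355.H182K.C12
import Vale.Agent.P355.H182K.C13
import Vale.Agent.P355.H182K.C14
import Vale.Agent.P355.H182K.C15
import Vale.Agent.P355.H182K.C16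
import Vale.Agent.P355.H182K.C17
import Vale.Agent.P355.H182K.C18
import Vale.Agent.P355.H182K.C19
import Vale.Agent.P355.H182K.C20
import Vale.Agent.P355.H182K.C21
import Vale.Agent.P355.H182K.C22
import Vale.Agent.P355.H182K.C23
import Vale.Agent.P355.H182K.C24
import Vale.Agent.P355.H182K.C25
import Vale.Agent.P355.H182K.C26
import Vale.Agent.P355.H182K.C27
import Vale.Agent.P355.H182K.C28
import Vale.Agent.P355.H182K.C29
import Vale.Agent.P355.H182K.C30
import Vale.Agent.P355.H182K.C31
import Vale.Agent.P355.H182K.C32
import Vale.Agent.P355.H182K.C33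
import Vale.Agent.P355.H182K.C34
import Vale.Agent.P355.H182K.C35
import Vale.Agent.P355.H182K.C36
import Vale.Agent.P355.H182K.C37
import Vale.Agent.P355.H182K.C38
import Vale.Agent.P355.H182K.C39
import Vale.Agent.P355.H182K.C40
import Vale.Agent.P355.H182K.C41
import Vale.Agent.P355.H182K.C42
import Vale.Agent.P355.H182K.C43
import Vale.Agent.P355.H182K.C44
import Vale.Agent.P355.H182K.C45
import Vale.Agent.P355.H182K.C46
import Vale.Agent.P355.H182K.C47
import Vale.Agent.P355.H182K.C48
import Vale.Agent.P355.H182K.C49
import Vale.Agent.P355.H182K.C50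
import Vale.Agent.P355.H182K.C51
import Vale.Agent.P355.H182K.C52
import Vale.Agent.P355.H182K.C53
import Vale.Agent.P355.H182K.C54
import Vale.Agent.P355.H182K.C55
import Vale.Agent.P355.H182K.C56
import Vale.Agent.P355.H182K.C57
import Vale.Agent.P355.H182K.C58
import Vale.Agent.P355.H182K.C59
import Vale.Agent.P355.H182K.C60
import Vale.Agent.P355.H182K.C61
import Vale.Agent.P355.H182K.C62
import Vale.Agent.P355.H182K.C63
import Vale.Agent.P355.H182K.C64
import Vale.Agent.P355.H182K.C65
import Vale.Agent.P355.H182K.C66
import Vale.Agent.P355.H182K.C67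
import Vale.Agent.P355.H182K.C68
import Vale.Agent.P355.H182K.C69
import Vale.Agent.P355.H182K.C70
import Vale.Agent.P355.H182K.C71
import Vale.Agent.P355.H182K.C72
import Vale.Agent.P355.H182K.C73
import Vale.Agent.P355.H182K.C74
import Vale.Agent.P355.H182K.C75
import Vale.Agent.P355.H182K.C76
import Vale.Agent.P355.H182K.C77
import Vale.Agent.P355.H182K.C78
import Vale.Agent.P355.H182K.C79
import Vale.Agent.P355.H182K.C80
import Vale.Agent.P355.H182K.C81
import Vale.Agent.P355.H182K.C82
import Vale.Agent.P355.H182K.C83
import Vale.Agent.P355.H182K.C84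
import Vale.Agent.P355.H182K.C85
import Vale.Agent.P355.H182K.C86
import Vale.Agent.P355.H182K.C87
import Vale.Agent.P355.H182K.C88
import Vale.Agent.P355.H182K.C89
import Vale.Agent.P355.H182K.C90
import Vale.Agent.P355.H182K.C91
import Vale.Agent.P355.H182K.C92
import Vale.Agent.P355.H182K.C93
import Vale.Agent.P355.H182K.C94
import Vale.Agent.P355.H182K.C95
import Vale.Agent.P355.H182K.C96
import Vale.Agent.P355.H182K.C97
import Vale.Agent.P355.H182K.C98
import Vale.Agent.P355.H182K.C99
import Vale.Agent.P355.H182K.C100
import Vale.Agent.P355.H182K.C101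
import Vale.Agent.P355.H182K.C102
import Vale.Agent.P355.H182K.C103
import Vale.Agent.P355.H182K.C104
import Vale.Agent.P355.H182K.C105
import Vale.Agent.P355.H182K.C106
import Vale.Agent.P355.H182K.C107
import Vale.Agent.P355.H182K.C108
import Vale.Agent.P355.H182K.C109
import Vale.Agent.P355.H182K.C110
import Vale.Agent.P355.H182K.C111
import Vale.Agent.P355.H182K.C112
import Vale.Agent.P355.H182K.C113
import Vale.Agent.P355.H182K.C114
import Vale.Agent.P355.H182K.C115
import Vale.Agent.P355.H182K.C116
import Vale.Agent.P355.H182K.C117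
import Vale.Agent.P355.H182K.C118
import Vale.Agent.P355.H182K.C119
import Vale.Agent.P355.H182K.C120
import Vale.Agent.P355.H182K.C121
import Vale.Agent.P355.H182K.C122
import Vale.Agent.P355.H182K.C123
import Vale.Agent.P355.H182K.C124
import Vale.Agent.P355.H182K.C125
import Vale.Agent.P355.H182K.C126
import Vale.Agent.P355.H182K.C127
import Vale.Agent.P355.H182K.C128
import Vale.Agent.P355.H182K.C129
import Vale.Agent.P355.H182K.C130
import Vale.Agent.P355.H182K.C131
import Vale.Agent.P355.H182K.C132
import Vale.Agent.P355.H182K.C133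
import Vale.Agent.P355.H182K.C134
import Vale.Agent.P355.H182K.C135
import Vale.Agent.P355.H182K.C136
import Vale.Agent.P355.H182K.C137
import Vale.Agent.P355.H182K.C138
import Vale.Agent.P355.H182K.C139
import Vale.Agent.P355.H182K.C140
import Vale.Agent.P355.H182K.C141
import Vale.Agent.P355.H182K.C142
import Vale.Agent.P355.H182K.C143
import Vale.Agent.P355.H182K.C144
import Vale.Agent.P355.H182K.C145
import Vale.Agent.P355.H182K.C146
import Vale.Agent.P355.H182K.C147
import Vale.Agent.P355.H182K.C148
import Vale.Agent.P355.H182K.C149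
import Vale.Agent.P355.H182K.C150
import Vale.Agent.P355.H182K.C151
import Vale.Agent.P355.H182K.C152
import Vale.Agent.P355.H182K.C153
import Vale.Agent.P355.H182K.C154
import Vale.Agent.P355.H182K.C155
import Vale.Agent.P355.H182K.C156
import Vale.Agent.P355.H182K.C157
import Vale.Agent.P355.H182K.C158
import Vale.Agent.P355.H182K.C159
import Vale.Agent.P355.H182K.C160
import Vale.Agent.P355.H182K.C161
import Vale.Agent.P355.H182K.C162
import Vale.Agent.P355.H182K.C163
import Vale.Agent.P355.H182K.C164
import Vale.Agent.P355.H182K.C165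
import Vale.Agent.P355.H182K.C166
import Vale.Agent.P355.H182K.C167
import Vale.Agent.P355.H182K.C168
import Vale.Agent.P355.H182K.C169
import Vale.Agent.P355.H182K.C170
import Vale.Agent.P355.H182K.C171
import Vale.Agent.P355.H182K.C172
import Vale.Agent.P355.H182K.C173
import Vale.Agent.P355.H182K.C174
import Vale.Agent.P355.H182K.C175
import Vale.Agent.P355.H182K.C176
import Vale.Agent.P355.H182K.C177
import Vale.Agent.P355.H182K.C178
import Vale.Agent.P355.H182K.C179
import Vale.Agent.P355.H182K.C180
import Vale.Agent.P355.H182K.C181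
import Vale.Agent.P355.H182K.C182
import Vale.Agent.P355.H182K.C183
import Vale.Agent.P355.H182K.C184
import Vale.Agent.P355.H182K.C185
import Vale.Agent.P355.H182K.C186
import Vale.Agent.P355.H182K.C187
import Vale.Agent.P355.H182K.C188
import Vale.Agent.P355.H182K.C189
import Vale.Agent.P355.H182K.C190

namespace Vale.Agent.P355.H182K

open Vale.Agent.P355 Vale.Agent.P355.H147 Vale.Agent.P355.H998.E Vale.Agent.P355.H41.F1

theorem hR : CW 4 3 3 D cls mv 0 240 := (((((((cm0).trans (cm1)).trans ((cm2).trans ((cm3).trans (cm4)))).trans (((cm5).trans ((cm6).trans (cm7))).trans ((cm8).trans ((cm9).trans (cm10))))).trans ((((cm11).trans ((cm12).trans (cm13))).trans ((cm14).trans ((cm15).trans (cm16)))).trans (((cm17).trans ((cm18).trans (cm19))).trans ((cm20).trans ((cm21).trans (cm22)))))).trans (((((cm23).trans ((cm24).trans (cm25))).trans ((cm26).trans ((cm27).trans (cm28)))).trans (((cm29).trans ((cm30).trans (cm31))).trans ((cm32).trans ((cm33).trans (cm34))))).trans ((((cm35).trans ((cm36).trans (cm37))).trans ((cm38).trans ((cm39).trans (cm40)))).trans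 (((cm41).trans ((cm42).trans (cm43))).trans ((cm44).trans ((cm45).trans (cm46))))))).trans ((((((cm47).trans ((cm48).trans (cm49))).trans ((cm50).trans ((cm51).trans (cm52)))).trans (((cm53).trans ((cm54).trans (cm55))).trans ((cm56).trans ((cm57).trans (cm58))))).trans ((((cm59).trans ((cm60).trans (cm61))).trans ((cm62).trans ((cm63).trans (cm64)))).trans (((cm65).trans ((cm66).trans (cm67))).trans ((cm68).trans ((cm69).trans (cm70)))))).trans (((((cm71).trans ((cm72).trans (cm73))).trans ((cm74).trans ((cm75).trans (cm76)))).trans (((cm77).trans ((cm78).trans (cm79))).trans ((cm80).trans ((cm81).trans (cm82))))).trans ((((cm83).trans ((cm84).trans (cm85))).trans ((cm86).trans ((cm87).trans (cm88)))).trans (((cm89).trans ((cm90).trans (cm91))).trans ((cm92).trans ((cm93).trans (cm94)))))))).trans (((((((cm95).trans ((cm96).trans (cm97))).trans ((cm98).trans ((cm99).trans (cm100)))).trans (((cm101).trans ((cm102).trans (cm103))).trans ((cm104).trans ((cm105).trans (cm106))))).trans ((((cm107).trans ((cm108).trans (cm109))).trans ((cm110).trans ((cm111).trans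 (cm112)))).trans (((cm113).trans ((cm114).trans (cm115))).trans ((cm116).trans ((cm117).trans (cm118)))))).trans (((((cm119).trans ((cm120).trans (cm121))).trans ((cm122).trans ((cm123).trans (cm124)))).trans (((cm125).trans ((cm126).trans (cm127))).trans ((cm128).trans ((cm129).trans (cm130))))).trans ((((cm131).trans ((cm132).trans (cm133))).trans ((cm134).trans ((cm135).trans (cm136)))).trans (((cm137).trans ((cm138).trans (cm139))).trans ((cm140).trans ((cm141).trans (cm142))))))).trans ((((((cm143).trans ((cm144).trans (cm145))).trans ((cm146).trans ((cm147).trans (cm148)))).trans (((cm149).trans ((cm150).trans (cm151))).trans ((cm152).trans ((cm153).trans (cm154))))).trans ((((cm155).trans ((cm156).trans (cm157))).trans ((cm158).trans ((cm159).trans (cm160)))).trans (((cm161).trans ((cm162).trans (cm163))).trans ((cm164).trans ((cm165).trans (cm166)))))).trans (((((cm167).trans ((cm168).trans (cm169))).trans ((cm170).trans ((cm171).trans (cm172)))).trans (((cm173).trans ((cm174).trans (cm175))).trans ((cm176).trans ((cm177).trans (cm178))))).trans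 ((((cm179).trans ((cm180).trans (cm181))).trans ((cm182).trans ((cm183).trans (cm184)))).trans (((cm185).trans ((cm186).trans (cm187))).trans ((cm188).trans ((cm189).trans (cm190))))))))

end Vale.Agent.P355.H182K
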