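import Vale.Agent.P355.H182K.Mv
import Vale.Agent.P355.H182K.E0
import Vale.Agent.P355.H182K.E1
import Vale.Agent.P355.H182K.E2
import Vale.Agent.P355.H182K.E3
import Vale.Agent.P355.H182K.E4
import Vale.Agent.P355.H182K.E5
import Vale.Agent.P355.H182K.E6
import Vale.Agent.P355.H182K.E7
import Vale.Agent.P355.H182K.E8
import Vale.Agent.P355.H182K.E9
import Vale.Agent.P355.H182K.E10

namespace Vale.Agent.P355.H182K

open Vale.Agent.P355 Vale.Agent.P355.H147 Vale.Agent.P355.H998.E Vale.Agent.P355.H41.F1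

def EL : List ℕ := E0 ++ (E1 ++ (E2 ++ (E3 ++ (E4 ++ (E5 ++ (E6 ++ (E7 ++ (E8 ++ (E9 ++ (E10))))))))))

def D : ED := ⟨6, 40, T, G, XL, EL, BP⟩

theorem ck : D.ck 4 3 3 = true := by decide +kernel

theorem hnk : D.XL.length = 240 := by decide +kernel

end Vale.Agent.P355.H182K
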