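import Vale.Agent.P355.H182K.S
import Vale.Agent.P355.H147.T2R

/-! Lower bound of the squares of the triple products of four bases, type with three kets and three
bras. -/

namespace Vale.Agent.P355.H182K

open Finset Matrix Vale.Agent.P355 H147 H998.E H41.F1

theorem e0 : empCk (cls 0) = true := by decide +kernel

theorem e1 : triCkR (cls 1) = true := by decide +kernel

theorem fin : endCkN t.Ws 240 t.m P160 Q160 14 50 2632694924050518432 0 3361919260953821653152 1 154830027037393848 = true := by decide +kernel

theorem k33 {B : Fin 4 → M6} (hB : IsMUBs B) :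
    0 ≤ -((2632694924050518432 : ℕ) : ℝ) + ((3361919260953821653152 : ℕ) : ℝ) * ((Fintype.card (Fin 3 ↪ Fin 4) : ℝ)⁻¹ * (H693.T2 B).re)
      + ((154830027037393848 : ℕ) : ℝ) * (5 / 2) :=
  t2_lowerNR hB (by norm_num) (by norm_num) (sok hB) tok hP hQ e0 e1 fin

/-- **Four mutually unbiased bases of `ℂ⁶`: the normalised sum of the squares of the triple products
is at least `66/100000`.** -/
theorem t2_ge {B : Fin 4 → M6} (hB : IsMUBs B) :
    (66 / 100000 : ℝ) ≤ (24 : ℝ)⁻¹ * (H693.T2 B).re := by
  have h := k33 hB
  have hc : (Fintype.card (Fin 3 ↪ Fin 4) : ℝ) = 24 := by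
    rw [Fintype.card_embedding_eq]
    simp [Nat.descFactorial]
  rw [hc] at h
  push_cast at h
  linarith

end Vale.Agent.P355.H182K
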