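import Vale.Agent.P355.H182K.Mv0
import Vale.Agent.P355.H182K.Mv1
import Vale.Agent.P355.H182K.Mv2
import Vale.Agent.P355.H182K.Mv3
import Vale.Agent.P355.H182K.Mv4
import Vale.Agent.P355.H182K.Mv5
import Vale.Agent.P355.H182K.Mv6
import Vale.Agent.P355.H182K.Mv7
import Vale.Agent.P355.H182K.Mv8
import Vale.Agent.P355.H182K.Mv9
import Vale.Agent.P355.H182K.Mv10
import Vale.Agent.P355.H182K.Mv11
import Vale.Agent.P355.H182K.Mv12
import Vale.Agent.P355.H182K.Mv13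
import Vale.Agent.P355.H182K.Mv14
import Vale.Agent.P355.H182K.Mv15

namespace Vale.Agent.P355.H182K

open Vale.Agent.P355 Vale.Agent.P355.H147 Vale.Agent.P355.H998.E Vale.Agent.P355.H41.F1

noncomputable def mvT : TT := (TT.nd (TT.nd (TT.nd (TT.nd (TT.nd (TT.nd mvT_0 mvT_32) (TT.nd mvT_16 mvT_48)) (TT.nd (TT.nd mvT_8 mvT_40) (TT.nd mvT_24 mvT_56))) (TT.nd (TT.nd (TT.nd mvT_4 mvT_36) (TT.nd mvT_20 mvT_52)) (TT.nd (TT.nd mvT_12 mvT_44) (TT.nd mvT_28 mvT_60)))) (TT.nd (TT.nd (TT.nd (TT.nd mvT_2 mvT_34) (TT.nd mvT_18 mvT_50)) (TT.nd (TT.nd mvT_10 mvT_42) (TT.nd mvT_26 mvT_58))) (TT.nd (TT.nd (TT.nd mvT_6 mvT_38) (TT.nd mvT_22 mvT_54)) (TT.nd (TT.nd mvT_14 mvT_46) (TT.nd mvT_30 mvT_62))))) (TT.nd (TT.nd (TT.nd (TT.nd (TT.nd mvT_1 mvT_33) (TT.nd mvT_17 mvT_49)) (TT.nd (TT.nd mvT_9 mvT_41) (TT.nd mvT_25 mvT_57))) (TT.nd (TT.nd (TT.nd mvT_5 mvT_37) (TT.nd mvT_21 mvT_53)) (TT.nd (TT.nd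 mvT_13 mvT_45) (TT.nd mvT_29 mvT_61)))) (TT.nd (TT.nd (TT.nd (TT.nd mvT_3 mvT_35) (TT.nd mvT_19 mvT_51)) (TT.nd (TT.nd mvT_11 mvT_43) (TT.nd mvT_27 mvT_59))) (TT.nd (TT.nd (TT.nd mvT_7 mvT_39) (TT.nd mvT_23 mvT_55)) (TT.nd (TT.nd mvT_15 mvT_47) (TT.nd mvT_31 mvT_63))))))

noncomputable def mv (i : ℕ) : ℕ := TT.atX 6 63 152 0xffffffffffffffffffffffffffffffffffffff mvT i

theorem allnd {n w mk : ℕ} {p : ℕ → Bool} {a b : TT} (ha : TT.allX n w mk p a = true)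
    (hb : TT.allX n w mk p b = true) : TT.allX n w mk p (TT.nd a b) = true := by
  show (TT.allX n w mk p a && TT.allX n w mk p b) = true
  rw [ha, hb]; rfl

theorem mvok : TT.allX 64 152 0xffffffffffffffffffffffffffffffffffffff (mvOKw 4) mvT = true := (allnd (allnd (allnd (allnd (allnd (allnd mok0 mok32) (allnd mok16 mok48)) (allnd (allnd mok8 mok40) (allnd mok24 mok56))) (allnd (allnd (allnd mok4 mok36) (allnd mok20 mok52)) (allnd (allnd mok12 mok44) (allnd mok28 mok60)))) (allnd (allnd (allnd (allnd mok2 mok34) (allnd mok18 mok50)) (allnd (allnd mok10 mok42) (allnd mok26 mok58))) (allnd (allnd (allnd mok6 mok38) (allnd mok22 mok54)) (allnd (allnd mok14 mok46) (allnd mok30 mok62))))) (allnd (allnd (allnd (allnd (allnd mok1 mok33) (allnd mok17 mok49)) (allnd (allnd mok9 mok41) (allnd mok25 mok57))) (allnd (allnd (allnd mok5 mok37) (allnd mok21 mok53)) (allnd (allnd mok13 mok45)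 (allnd mok29 mok61)))) (allnd (allnd (allnd (allnd mok3 mok35) (allnd mok19 mok51)) (allnd (allnd mok11 mok43) (allnd mok27 mok59))) (allnd (allnd (allnd mok7 mok39) (allnd mok23 mok55)) (allnd (allnd mok15 mok47) (allnd mok31 mok63))))))

theorem hmv (i : ℕ) : mvOKw 4 (mv i) = true := TT.atX_spec mvok rfl i

end Vale.Agent.P355.H182K
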