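import Vale.Agent.P355.H182.Bk

namespace Vale.Agent.P355.H182K

open Vale.Agent.P355 Vale.Agent.P355.H147 Vale.Agent.P355.H182.Bk

def P0 : ℕ := nat_lit 0xc7560062511d5252f106800000000000017d96007293cf6a495fbf0000000000000063ab0031b22a2e6c2d030000000000000084e3fdf261088c9bda55000000000000007f31febde81cb98164ba0000000000000348c556cbe7a55011eb40000000000000017652e5d46ef191dfbdcfb8000000000002c55cf0b2ed09776f549fc00000000000028c05064089781520505d6800000000000099f06fc2d2f9817ecca81c000000000019a4cab3ec8b0b990264f9b8000000000061abbad38d307d79622893dc0000000000000005b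

def Q0 : ℕ := nat_lit 0xc7560056fd2f9ffbee8c800000000000017d96007513b4eca774560000000000000063ab002af4fc4abb42c68000000000000084e3fdf916f6c4a2636b800000000000007f31fe8927c93f6cb9e80000000000000348c55a780d395f26ef4f800000000000017652ebbc86c2c8ba2f9cf4000000000002c55cf0fe65673ef956f1200000000000028c050883799766eb08e5bc00000000000099f06eb43bc67667b661ba000000000019a4ca9eaf95025256b34db4000000000061abbaaf725c353d8ee9c1b20000000000000005b

end Vale.Agent.P355.H182K
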