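import Vale.Agent.P355.H182K.T
import Vale.Agent.P355.H182.Bk1
import Vale.Agent.P355.H182K.V0

namespace Vale.Agent.P355.H182K

open Vale.Agent.P355 Vale.Agent.P355.H147 Vale.Agent.P355.H998.E Vale.Agent.P355.H41.F1 Vale.Agent.P355.H182.Bk

theorem hP0 : Ch t true 0 13 0 P0 :=
  chB1 (TT := 6) (rw := 40) (o := 268435456) (fs := fs) (bl := 29) (bu := 66) tok rfl fok rfl (by decide +kernel) true 13 0 13 _ _ (by decide +kernel)

end Vale.Agent.P355.H182K
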