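import Vale.Agent.P355.H182K.T
import Vale.Agent.P355.H182K.CC
import Vale.Agent.P355.H182K.R0
import Vale.Agent.P355.H182K.R1
import Vale.Agent.P355.H182K.R2
import Vale.Agent.P355.H182K.R3
import Vale.Agent.P355.H182K.R4
import Vale.Agent.P355.H182K.R5
import Vale.Agent.P355.H182K.R6
import Vale.Agent.P355.H182K.R7
import Vale.Agent.P355.H182K.R8
import Vale.Agent.P355.H182K.R9
import Vale.Agent.P355.H182K.R10
import Vale.Agent.P355.H182K.R11
import Vale.Agent.P355.H182K.R12
import Vale.Agent.P355.H182K.R13
import Vale.Agent.P355.H182K.R14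
import Vale.Agent.P355.H182K.R15
import Vale.Agent.P355.H182K.R16
import Vale.Agent.P355.H182K.R17
import Vale.Agent.P355.H182K.R18
import Vale.Agent.P355.H182K.R19
import Vale.Agent.P355.H182K.R20
import Vale.Agent.P355.H182K.R21
import Vale.Agent.P355.H182K.R22
import Vale.Agent.P355.H182K.R23
import Vale.Agent.P355.H182K.R24
import Vale.Agent.P355.H182K.R25
import Vale.Agent.P355.H182K.R26
import Vale.Agent.P355.H182K.R27
import Vale.Agent.P355.H182K.R28
import Vale.Agent.P355.H182K.R29
import Vale.Agent.P355.H182K.R30
import Vale.Agent.P355.H182K.R31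
import Vale.Agent.P355.H182K.R32
import Vale.Agent.P355.H182K.R33
import Vale.Agent.P355.H182K.R34
import Vale.Agent.P355.H182K.R35
import Vale.Agent.P355.H182K.R36
import Vale.Agent.P355.H182K.R37
import Vale.Agent.P355.H182K.R38
import Vale.Agent.P355.H182K.R39
import Vale.Agent.P355.H182K.R40
import Vale.Agent.P355.H182K.R41
import Vale.Agent.P355.H182K.R42
import Vale.Agent.P355.H182K.R43
import Vale.Agent.P355.H182K.R44
import Vale.Agent.P355.H182K.R45
import Vale.Agent.P355.H182K.R46
import Vale.Agent.P355.H182K.R47
import Vale.Agent.P355.H182K.R48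
import Vale.Agent.P355.H182K.R49
import Vale.Agent.P355.H182K.R50
import Vale.Agent.P355.H182K.R51
import Vale.Agent.P355.H182K.R52
import Vale.Agent.P355.H182K.R53
import Vale.Agent.P355.H182K.R54
import Vale.Agent.P355.H182K.R55
import Vale.Agent.P355.H182K.R56
import Vale.Agent.P355.H182K.R57
import Vale.Agent.P355.H182K.R58
import Vale.Agent.P355.H182K.R59
import Vale.Agent.P355.H182K.R60
import Vale.Agent.P355.H182K.R61
import Vale.Agent.P355.H182K.R62
import Vale.Agent.P355.H182K.R63
import Vale.Agent.P355.H182K.R64
import Vale.Agent.P355.H182K.R65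
import Vale.Agent.P355.H182K.R66
import Vale.Agent.P355.H182K.R67
import Vale.Agent.P355.H182K.R68
import Vale.Agent.P355.H182K.R69
import Vale.Agent.P355.H182K.R70
import Vale.Agent.P355.H182K.R71
import Vale.Agent.P355.H182K.R72
import Vale.Agent.P355.H182K.R73
import Vale.Agent.P355.H182K.R74
import Vale.Agent.P355.H182K.R75
import Vale.Agent.P355.H182K.R76
import Vale.Agent.P355.H182K.R77
import Vale.Agent.P355.H182K.R78
import Vale.Agent.P355.H182K.R79
import Vale.Agent.P355.H182K.R80
import Vale.Agent.P355.H182K.R81
import Vale.Agent.P355.H182K.R82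
import Vale.Agent.P355.H182K.R83
import Vale.Agent.P355.H182K.R84
import Vale.Agent.P355.H182K.R85
import Vale.Agent.P355.H182K.R86
import Vale.Agent.P355.H182K.R87
import Vale.Agent.P355.H182K.R88
import Vale.Agent.P355.H182K.R89
import Vale.Agent.P355.H182K.R90
import Vale.Agent.P355.H182K.R91
import Vale.Agent.P355.H182K.R92
import Vale.Agent.P355.H182K.R93
import Vale.Agent.P355.H182K.R94
import Vale.Agent.P355.H182K.R95
import Vale.Agent.P355.H182K.R96
import Vale.Agent.P355.H182K.R97
import Vale.Agent.P355.H182K.R98
import Vale.Agent.P355.H182K.R99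
import Vale.Agent.P355.H182K.R100
import Vale.Agent.P355.H182K.R101
import Vale.Agent.P355.H182K.R102
import Vale.Agent.P355.H182K.R103
import Vale.Agent.P355.H182K.R104
import Vale.Agent.P355.H182K.R105
import Vale.Agent.P355.H182K.R106
import Vale.Agent.P355.H182K.R107
import Vale.Agent.P355.H182K.R108
import Vale.Agent.P355.H182K.R109
import Vale.Agent.P355.H182K.R110
import Vale.Agent.P355.H182K.R111
import Vale.Agent.P355.H182K.R112
import Vale.Agent.P355.H182K.R113
import Vale.Agent.P355.H182K.R114
import Vale.Agent.P355.H182K.R115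
import Vale.Agent.P355.H182K.R116
import Vale.Agent.P355.H182K.R117
import Vale.Agent.P355.H182K.R118
import Vale.Agent.P355.H182K.R119
import Vale.Agent.P355.H182K.R120
import Vale.Agent.P355.H182K.R121
import Vale.Agent.P355.H182K.R122
import Vale.Agent.P355.H182K.R123
import Vale.Agent.P355.H182K.R124
import Vale.Agent.P355.H182K.R125
import Vale.Agent.P355.H182K.R126
import Vale.Agent.P355.H182K.R127
import Vale.Agent.P355.H182K.R128
import Vale.Agent.P355.H182K.R129
import Vale.Agent.P355.H182K.R130
import Vale.Agent.P355.H182K.R131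
import Vale.Agent.P355.H182K.R132
import Vale.Agent.P355.H182K.R133
import Vale.Agent.P355.H182K.R134
import Vale.Agent.P355.H182K.R135
import Vale.Agent.P355.H182K.R136
import Vale.Agent.P355.H182K.R137
import Vale.Agent.P355.H182K.R138
import Vale.Agent.P355.H182K.R139
import Vale.Agent.P355.H182K.R140
import Vale.Agent.P355.H182K.R141
import Vale.Agent.P355.H182K.R142
import Vale.Agent.P355.H182K.R143
import Vale.Agent.P355.H182K.R144
import Vale.Agent.P355.H182K.R145
import Vale.Agent.P355.H182K.R146
import Vale.Agent.P355.H182K.R147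
import Vale.Agent.P355.H182K.R148
import Vale.Agent.P355.H182K.R149
import Vale.Agent.P355.H182K.R150
import Vale.Agent.P355.H182K.R151
import Vale.Agent.P355.H182K.R152
import Vale.Agent.P355.H182K.R153
import Vale.Agent.P355.H182K.R154
import Vale.Agent.P355.H182K.R155
import Vale.Agent.P355.H182K.R156
import Vale.Agent.P355.H182K.R157
import Vale.Agent.P355.H182K.R158
import Vale.Agent.P355.H182K.R159
import Vale.Agent.P355.H182K.R160
import Vale.Agent.P355.H182K.U0
import Vale.Agent.P355.H182K.U1
import Vale.Agent.P355.H182K.U2
import Vale.Agent.P355.H182K.U3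
import Vale.Agent.P355.H182K.U4
import Vale.Agent.P355.H182K.U5
import Vale.Agent.P355.H182K.U6
import Vale.Agent.P355.H182K.U7
import Vale.Agent.P355.H182K.U8
import Vale.Agent.P355.H182K.U9
import Vale.Agent.P355.H182K.U10
import Vale.Agent.P355.H182K.U11
import Vale.Agent.P355.H182K.U12
import Vale.Agent.P355.H182K.U13
import Vale.Agent.P355.H182K.U14
import Vale.Agent.P355.H182K.U15
import Vale.Agent.P355.H182K.U16
import Vale.Agent.P355.H182K.U17
import Vale.Agent.P355.H182K.U18
import Vale.Agent.P355.H182K.U19
import Vale.Agent.P355.H182K.U20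
import Vale.Agent.P355.H182K.U21
import Vale.Agent.P355.H182K.U22
import Vale.Agent.P355.H182K.U23
import Vale.Agent.P355.H182K.U24
import Vale.Agent.P355.H182K.U25
import Vale.Agent.P355.H182K.U26
import Vale.Agent.P355.H182K.U27
import Vale.Agent.P355.H182K.U28
import Vale.Agent.P355.H182K.U29
import Vale.Agent.P355.H182K.U30
import Vale.Agent.P355.H182K.U31
import Vale.Agent.P355.H182K.U32
import Vale.Agent.P355.H182K.U33
import Vale.Agent.P355.H182K.U34
import Vale.Agent.P355.H182K.U35
import Vale.Agent.P355.H182K.U36
import Vale.Agent.P355.H182K.U37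
import Vale.Agent.P355.H182K.U38
import Vale.Agent.P355.H182K.U39
import Vale.Agent.P355.H182K.U40
import Vale.Agent.P355.H182K.U41
import Vale.Agent.P355.H182K.U42
import Vale.Agent.P355.H182K.U43
import Vale.Agent.P355.H182K.U44
import Vale.Agent.P355.H182K.U45
import Vale.Agent.P355.H182K.U46
import Vale.Agent.P355.H182K.U47
import Vale.Agent.P355.H182K.U48
import Vale.Agent.P355.H182K.U49
import Vale.Agent.P355.H182K.U50
import Vale.Agent.P355.H182K.U51
import Vale.Agent.P355.H182K.U52
import Vale.Agent.P355.H182K.U53
import Vale.Agent.P355.H182K.U54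
import Vale.Agent.P355.H182K.U55
import Vale.Agent.P355.H182K.U56
import Vale.Agent.P355.H182K.U57
import Vale.Agent.P355.H182K.U58
import Vale.Agent.P355.H182K.U59
import Vale.Agent.P355.H182K.U60
import Vale.Agent.P355.H182K.U61
import Vale.Agent.P355.H182K.U62
import Vale.Agent.P355.H182K.U63
import Vale.Agent.P355.H182K.U64
import Vale.Agent.P355.H182K.U65
import Vale.Agent.P355.H182K.U66
import Vale.Agent.P355.H182K.U67
import Vale.Agent.P355.H182K.U68
import Vale.Agent.P355.H182K.U69
import Vale.Agent.P355.H182K.U70
import Vale.Agent.P355.H182K.U71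
import Vale.Agent.P355.H182K.U72
import Vale.Agent.P355.H182K.U73
import Vale.Agent.P355.H182K.U74
import Vale.Agent.P355.H182K.U75
import Vale.Agent.P355.H182K.U76
import Vale.Agent.P355.H182K.U77
import Vale.Agent.P355.H182K.U78
import Vale.Agent.P355.H182K.U79
import Vale.Agent.P355.H182K.U80
import Vale.Agent.P355.H182K.U81
import Vale.Agent.P355.H182K.U82
import Vale.Agent.P355.H182K.U83
import Vale.Agent.P355.H182K.U84
import Vale.Agent.P355.H182K.U85
import Vale.Agent.P355.H182K.U86
import Vale.Agent.P355.H182K.U87
import Vale.Agent.P355.H182K.U88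
import Vale.Agent.P355.H182K.U89
import Vale.Agent.P355.H182K.U90
import Vale.Agent.P355.H182K.U91
import Vale.Agent.P355.H182K.U92
import Vale.Agent.P355.H182K.U93
import Vale.Agent.P355.H182K.U94
import Vale.Agent.P355.H182K.U95
import Vale.Agent.P355.H182K.U96
import Vale.Agent.P355.H182K.U97
import Vale.Agent.P355.H182K.U98
import Vale.Agent.P355.H182K.U99
import Vale.Agent.P355.H182K.U100
import Vale.Agent.P355.H182K.U101
import Vale.Agent.P355.H182K.U102
import Vale.Agent.P355.H182K.U103
import Vale.Agent.P355.H182K.U104
import Vale.Agent.P355.H182K.U105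
import Vale.Agent.P355.H182K.U106
import Vale.Agent.P355.H182K.U107
import Vale.Agent.P355.H182K.U108
import Vale.Agent.P355.H182K.U109
import Vale.Agent.P355.H182K.U110
import Vale.Agent.P355.H182K.U111
import Vale.Agent.P355.H182K.U112
import Vale.Agent.P355.H182K.U113
import Vale.Agent.P355.H182K.U114
import Vale.Agent.P355.H182K.U115
import Vale.Agent.P355.H182K.U116
import Vale.Agent.P355.H182K.U117
import Vale.Agent.P355.H182K.U118
import Vale.Agent.P355.H182K.U119
import Vale.Agent.P355.H182K.U120
import Vale.Agent.P355.H182K.U121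
import Vale.Agent.P355.H182K.U122
import Vale.Agent.P355.H182K.U123
import Vale.Agent.P355.H182K.U124
import Vale.Agent.P355.H182K.U125
import Vale.Agent.P355.H182K.U126
import Vale.Agent.P355.H182K.U127
import Vale.Agent.P355.H182K.U128
import Vale.Agent.P355.H182K.U129
import Vale.Agent.P355.H182K.U130
import Vale.Agent.P355.H182K.U131
import Vale.Agent.P355.H182K.U132
import Vale.Agent.P355.H182K.U133
import Vale.Agent.P355.H182K.U134
import Vale.Agent.P355.H182K.U135
import Vale.Agent.P355.H182K.U136
import Vale.Agent.P355.H182K.U137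
import Vale.Agent.P355.H182K.U138
import Vale.Agent.P355.H182K.U139
import Vale.Agent.P355.H182K.U140
import Vale.Agent.P355.H182K.U141
import Vale.Agent.P355.H182K.U142
import Vale.Agent.P355.H182K.U143
import Vale.Agent.P355.H182K.U144
import Vale.Agent.P355.H182K.U145
import Vale.Agent.P355.H182K.U146
import Vale.Agent.P355.H182K.U147
import Vale.Agent.P355.H182K.U148
import Vale.Agent.P355.H182K.U149
import Vale.Agent.P355.H182K.U150
import Vale.Agent.P355.H182K.U151
import Vale.Agent.P355.H182K.U152
import Vale.Agent.P355.H182K.U153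
import Vale.Agent.P355.H182K.U154
import Vale.Agent.P355.H182K.U155
import Vale.Agent.P355.H182K.U156
import Vale.Agent.P355.H182K.U157
import Vale.Agent.P355.H182K.U158
import Vale.Agent.P355.H182K.U159
import Vale.Agent.P355.H182K.U160

namespace Vale.Agent.P355.H182K

open Vale.Agent.P355 Vale.Agent.P355.H147 Vale.Agent.P355.H998.E Vale.Agent.P355.H41.F1

theorem sok {m : ℕ} {B : Fin m → M6} (hB : IsMUBs B) :
    SOk t.n 240 (D.G.act 4 3 3) G.nu ((D.T.ty 4).M B)
      (fun i => (D.XL.getD i pf0).dec 4 3 3) ((6 : ℝ) ^ D.TT) t.R
      (fun i => cvB B 4 (cls i)) t.BP t.EL :=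
  sokW (k := 3) (l := 3) hB (by norm_num) hmv ck hnk hR

theorem hP : Ch t true 0 240 0 P160 := ((((((((((((((((((((((((((((((((((((((((((((((((((((((((((((((((((((((((((((((((((((((((((((((((((((((((((((((((((((((((((((((((((((((((((((((((((((((((((((((((hP0).trans hP1 (by norm_num) (by norm_num)).trans hP2 (by norm_num) (by norm_num)).trans hP3 (by norm_num) (by norm_num)).trans hP4 (by norm_num) (by norm_num)).trans hP5 (by norm_num) (by norm_num)).trans hP6 (by norm_num) (by norm_num)).trans hP7 (by norm_num) (by norm_num)).trans hP8 (by norm_num) (by norm_num)).trans hP9 (by norm_num) (by norm_num)).trans hP10 (by norm_num) (by norm_num)).trans hP11 (by norm_num) (by norm_num)).trans hP12 (by norm_num) (by norm_num)).trans hP13 (by norm_num) (by norm_num)).trans hP14 (by norm_num) (by norm_num)).trans hP15 (by norm_num) (by norm_num)).trans hP16 (by norm_num) (by norm_num)).trans hP17 (by norm_num) (by norm_num)).trans hP18 (by norm_num) (by norm_num)).trans hP19 (by norm_num) (by norm_num)).trans hP20 (by norm_num) (by norm_num)).trans hP21 (by norm_num) (by norm_num)).trans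 hP22 (by norm_num) (by norm_num)).trans hP23 (by norm_num) (by norm_num)).trans hP24 (by norm_num) (by norm_num)).trans hP25 (by norm_num) (by norm_num)).trans hP26 (by norm_num) (by norm_num)).trans hP27 (by norm_num) (by norm_num)).trans hP28 (by norm_num) (by norm_num)).trans hP29 (by norm_num) (by norm_num)).trans hP30 (by norm_num) (by norm_num)).trans hP31 (by norm_num) (by norm_num)).trans hP32 (by norm_num) (by norm_num)).trans hP33 (by norm_num) (by norm_num)).trans hP34 (by norm_num) (by norm_num)).trans hP35 (by norm_num) (by norm_num)).trans hP36 (by norm_num) (by norm_num)).trans hP37 (by norm_num) (by norm_num)).trans hP38 (by norm_num) (by norm_num)).trans hP39 (by norm_num) (by norm_num)).trans hP40 (by norm_num) (by norm_num)).trans hP41 (by norm_num) (by norm_num)).trans hP42 (by norm_num) (by norm_num)).trans hP43 (by norm_num) (by norm_num)).trans hP44 (by norm_num) (by norm_num)).trans hP45 (by norm_num) (by norm_num)).trans hP46 (by norm_num) (by norm_num)).trans hP47 (by norm_num) (by norm_num)).trans hP48 (by norm_num) (by norm_num)).trans hP49 (by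 norm_num) (by norm_num)).trans hP50 (by norm_num) (by norm_num)).trans hP51 (by norm_num) (by norm_num)).trans hP52 (by norm_num) (by norm_num)).trans hP53 (by norm_num) (by norm_num)).trans hP54 (by norm_num) (by norm_num)).trans hP55 (by norm_num) (by norm_num)).trans hP56 (by norm_num) (by norm_num)).trans hP57 (by norm_num) (by norm_num)).trans hP58 (by norm_num) (by norm_num)).trans hP59 (by norm_num) (by norm_num)).trans hP60 (by norm_num) (by norm_num)).trans hP61 (by norm_num) (by norm_num)).trans hP62 (by norm_num) (by norm_num)).trans hP63 (by norm_num) (by norm_num)).trans hP64 (by norm_num) (by norm_num)).trans hP65 (by norm_num) (by norm_num)).trans hP66 (by norm_num) (by norm_num)).trans hP67 (by norm_num) (by norm_num)).trans hP68 (by norm_num) (by norm_num)).trans hP69 (by norm_num) (by norm_num)).trans hP70 (by norm_num) (by norm_num)).trans hP71 (by norm_num) (by norm_num)).trans hP72 (by norm_num) (by norm_num)).trans hP73 (by norm_num) (by norm_num)).trans hP74 (by norm_num) (by norm_num)).trans hP75 (by norm_num) (by norm_num)).trans hP76 (by norm_num)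 (by norm_num)).trans hP77 (by norm_num) (by norm_num)).trans hP78 (by norm_num) (by norm_num)).trans hP79 (by norm_num) (by norm_num)).trans hP80 (by norm_num) (by norm_num)).trans hP81 (by norm_num) (by norm_num)).trans hP82 (by norm_num) (by norm_num)).trans hP83 (by norm_num) (by norm_num)).trans hP84 (by norm_num) (by norm_num)).trans hP85 (by norm_num) (by norm_num)).trans hP86 (by norm_num) (by norm_num)).trans hP87 (by norm_num) (by norm_num)).trans hP88 (by norm_num) (by norm_num)).trans hP89 (by norm_num) (by norm_num)).trans hP90 (by norm_num) (by norm_num)).trans hP91 (by norm_num) (by norm_num)).trans hP92 (by norm_num) (by norm_num)).trans hP93 (by norm_num) (by norm_num)).trans hP94 (by norm_num) (by norm_num)).trans hP95 (by norm_num) (by norm_num)).trans hP96 (by norm_num) (by norm_num)).trans hP97 (by norm_num) (by norm_num)).trans hP98 (by norm_num) (by norm_num)).trans hP99 (by norm_num) (by norm_num)).trans hP100 (by norm_num) (by norm_num)).trans hP101 (by norm_num) (by norm_num)).trans hP102 (by norm_num) (by norm_num)).trans hP103 (by norm_num) (by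 norm_num)).trans hP104 (by norm_num) (by norm_num)).trans hP105 (by norm_num) (by norm_num)).trans hP106 (by norm_num) (by norm_num)).trans hP107 (by norm_num) (by norm_num)).trans hP108 (by norm_num) (by norm_num)).trans hP109 (by norm_num) (by norm_num)).trans hP110 (by norm_num) (by norm_num)).trans hP111 (by norm_num) (by norm_num)).trans hP112 (by norm_num) (by norm_num)).trans hP113 (by norm_num) (by norm_num)).trans hP114 (by norm_num) (by norm_num)).trans hP115 (by norm_num) (by norm_num)).trans hP116 (by norm_num) (by norm_num)).trans hP117 (by norm_num) (by norm_num)).trans hP118 (by norm_num) (by norm_num)).trans hP119 (by norm_num) (by norm_num)).trans hP120 (by norm_num) (by norm_num)).trans hP121 (by norm_num) (by norm_num)).trans hP122 (by norm_num) (by norm_num)).trans hP123 (by norm_num) (by norm_num)).trans hP124 (by norm_num) (by norm_num)).trans hP125 (by norm_num) (by norm_num)).trans hP126 (by norm_num) (by norm_num)).trans hP127 (by norm_num) (by norm_num)).trans hP128 (by norm_num) (by norm_num)).trans hP129 (by norm_num) (by norm_num)).trans hP130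 (by norm_num) (by norm_num)).trans hP131 (by norm_num) (by norm_num)).trans hP132 (by norm_num) (by norm_num)).trans hP133 (by norm_num) (by norm_num)).trans hP134 (by norm_num) (by norm_num)).trans hP135 (by norm_num) (by norm_num)).trans hP136 (by norm_num) (by norm_num)).trans hP137 (by norm_num) (by norm_num)).trans hP138 (by norm_num) (by norm_num)).trans hP139 (by norm_num) (by norm_num)).trans hP140 (by norm_num) (by norm_num)).trans hP141 (by norm_num) (by norm_num)).trans hP142 (by norm_num) (by norm_num)).trans hP143 (by norm_num) (by norm_num)).trans hP144 (by norm_num) (by norm_num)).trans hP145 (by norm_num) (by norm_num)).trans hP146 (by norm_num) (by norm_num)).trans hP147 (by norm_num) (by norm_num)).trans hP148 (by norm_num) (by norm_num)).trans hP149 (by norm_num) (by norm_num)).trans hP150 (by norm_num) (by norm_num)).trans hP151 (by norm_num) (by norm_num)).trans hP152 (by norm_num) (by norm_num)).trans hP153 (by norm_num) (by norm_num)).trans hP154 (by norm_num) (by norm_num)).trans hP155 (by norm_num) (by norm_num)).trans hP156 (by norm_num) (by norm_num)).trans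 hP157 (by norm_num) (by norm_num)).trans hP158 (by norm_num) (by norm_num)).trans hP159 (by norm_num) (by norm_num)).trans hP160 (by norm_num) (by norm_num)

theorem hQ : Ch t false 0 240 0 Q160 := ((((((((((((((((((((((((((((((((((((((((((((((((((((((((((((((((((((((((((((((((((((((((((((((((((((((((((((((((((((((((((((((((((((((((((((((((((((((((((((((((hQ0).trans hQ1 (by norm_num) (by norm_num)).trans hQ2 (by norm_num) (by norm_num)).trans hQ3 (by norm_num) (by norm_num)).trans hQ4 (by norm_num) (by norm_num)).trans hQ5 (by norm_num) (by norm_num)).trans hQ6 (by norm_num) (by norm_num)).trans hQ7 (by norm_num) (by norm_num)).trans hQ8 (by norm_num) (by norm_num)).trans hQ9 (by norm_num) (by norm_num)).trans hQ10 (by norm_num) (by norm_num)).trans hQ11 (by norm_num) (by norm_num)).trans hQ12 (by norm_num) (by norm_num)).trans hQ13 (by norm_num) (by norm_num)).trans hQ14 (by norm_num) (by norm_num)).trans hQ15 (by norm_num) (by norm_num)).trans hQ16 (by norm_num) (by norm_num)).trans hQ17 (by norm_num) (by norm_num)).trans hQ18 (by norm_num) (by norm_num)).trans hQ19 (by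 norm_num) (by norm_num)).trans hQ20 (by norm_num) (by norm_num)).trans hQ21 (by norm_num) (by norm_num)).trans hQ22 (by norm_num) (by norm_num)).trans hQ23 (by norm_num) (by norm_num)).trans hQ24 (by norm_num) (by norm_num)).trans hQ25 (by norm_num) (by norm_num)).trans hQ26 (by norm_num) (by norm_num)).trans hQ27 (by norm_num) (by norm_num)).trans hQ28 (by norm_num) (by norm_num)).trans hQ29 (by norm_num) (by norm_num)).trans hQ30 (by norm_num) (by norm_num)).trans hQ31 (by norm_num) (by norm_num)).trans hQ32 (by norm_num) (by norm_num)).trans hQ33 (by norm_num) (by norm_num)).trans hQ34 (by norm_num) (by norm_num)).trans hQ35 (by norm_num) (by norm_num)).trans hQ36 (by norm_num) (by norm_num)).trans hQ37 (by norm_num) (by norm_num)).trans hQ38 (by norm_num) (by norm_num)).trans hQ39 (by norm_num) (by norm_num)).trans hQ40 (by norm_num) (by norm_num)).trans hQ41 (by norm_num) (by norm_num)).trans hQ42 (by norm_num) (by norm_num)).trans hQ43 (by norm_num) (by norm_num)).trans hQ44 (by norm_num) (by norm_num)).trans hQ45 (by norm_num) (by norm_num)).trans hQ46 (by norm_num)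 (by norm_num)).trans hQ47 (by norm_num) (by norm_num)).trans hQ48 (by norm_num) (by norm_num)).trans hQ49 (by norm_num) (by norm_num)).trans hQ50 (by norm_num) (by norm_num)).trans hQ51 (by norm_num) (by norm_num)).trans hQ52 (by norm_num) (by norm_num)).trans hQ53 (by norm_num) (by norm_num)).trans hQ54 (by norm_num) (by norm_num)).trans hQ55 (by norm_num) (by norm_num)).trans hQ56 (by norm_num) (by norm_num)).trans hQ57 (by norm_num) (by norm_num)).trans hQ58 (by norm_num) (by norm_num)).trans hQ59 (by norm_num) (by norm_num)).trans hQ60 (by norm_num) (by norm_num)).trans hQ61 (by norm_num) (by norm_num)).trans hQ62 (by norm_num) (by norm_num)).trans hQ63 (by norm_num) (by norm_num)).trans hQ64 (by norm_num) (by norm_num)).trans hQ65 (by norm_num) (by norm_num)).trans hQ66 (by norm_num) (by norm_num)).trans hQ67 (by norm_num) (by norm_num)).trans hQ68 (by norm_num) (by norm_num)).trans hQ69 (by norm_num) (by norm_num)).trans hQ70 (by norm_num) (by norm_num)).trans hQ71 (by norm_num) (by norm_num)).trans hQ72 (by norm_num) (by norm_num)).trans hQ73 (by norm_num) (by norm_num)).trans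 hQ74 (by norm_num) (by norm_num)).trans hQ75 (by norm_num) (by norm_num)).trans hQ76 (by norm_num) (by norm_num)).trans hQ77 (by norm_num) (by norm_num)).trans hQ78 (by norm_num) (by norm_num)).trans hQ79 (by norm_num) (by norm_num)).trans hQ80 (by norm_num) (by norm_num)).trans hQ81 (by norm_num) (by norm_num)).trans hQ82 (by norm_num) (by norm_num)).trans hQ83 (by norm_num) (by norm_num)).trans hQ84 (by norm_num) (by norm_num)).trans hQ85 (by norm_num) (by norm_num)).trans hQ86 (by norm_num) (by norm_num)).trans hQ87 (by norm_num) (by norm_num)).trans hQ88 (by norm_num) (by norm_num)).trans hQ89 (by norm_num) (by norm_num)).trans hQ90 (by norm_num) (by norm_num)).trans hQ91 (by norm_num) (by norm_num)).trans hQ92 (by norm_num) (by norm_num)).trans hQ93 (by norm_num) (by norm_num)).trans hQ94 (by norm_num) (by norm_num)).trans hQ95 (by norm_num) (by norm_num)).trans hQ96 (by norm_num) (by norm_num)).trans hQ97 (by norm_num) (by norm_num)).trans hQ98 (by norm_num) (by norm_num)).trans hQ99 (by norm_num) (by norm_num)).trans hQ100 (by norm_num) (by norm_num)).trans hQ101 (by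 norm_num) (by norm_num)).trans hQ102 (by norm_num) (by norm_num)).trans hQ103 (by norm_num) (by norm_num)).trans hQ104 (by norm_num) (by norm_num)).trans hQ105 (by norm_num) (by norm_num)).trans hQ106 (by norm_num) (by norm_num)).trans hQ107 (by norm_num) (by norm_num)).trans hQ108 (by norm_num) (by norm_num)).trans hQ109 (by norm_num) (by norm_num)).trans hQ110 (by norm_num) (by norm_num)).trans hQ111 (by norm_num) (by norm_num)).trans hQ112 (by norm_num) (by norm_num)).trans hQ113 (by norm_num) (by norm_num)).trans hQ114 (by norm_num) (by norm_num)).trans hQ115 (by norm_num) (by norm_num)).trans hQ116 (by norm_num) (by norm_num)).trans hQ117 (by norm_num) (by norm_num)).trans hQ118 (by norm_num) (by norm_num)).trans hQ119 (by norm_num) (by norm_num)).trans hQ120 (by norm_num) (by norm_num)).trans hQ121 (by norm_num) (by norm_num)).trans hQ122 (by norm_num) (by norm_num)).trans hQ123 (by norm_num) (by norm_num)).trans hQ124 (by norm_num) (by norm_num)).trans hQ125 (by norm_num) (by norm_num)).trans hQ126 (by norm_num) (by norm_num)).trans hQ127 (by norm_num) (by norm_num)).trans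 hQ128 (by norm_num) (by norm_num)).trans hQ129 (by norm_num) (by norm_num)).trans hQ130 (by norm_num) (by norm_num)).trans hQ131 (by norm_num) (by norm_num)).trans hQ132 (by norm_num) (by norm_num)).trans hQ133 (by norm_num) (by norm_num)).trans hQ134 (by norm_num) (by norm_num)).trans hQ135 (by norm_num) (by norm_num)).trans hQ136 (by norm_num) (by norm_num)).trans hQ137 (by norm_num) (by norm_num)).trans hQ138 (by norm_num) (by norm_num)).trans hQ139 (by norm_num) (by norm_num)).trans hQ140 (by norm_num) (by norm_num)).trans hQ141 (by norm_num) (by norm_num)).trans hQ142 (by norm_num) (by norm_num)).trans hQ143 (by norm_num) (by norm_num)).trans hQ144 (by norm_num) (by norm_num)).trans hQ145 (by norm_num) (by norm_num)).trans hQ146 (by norm_num) (by norm_num)).trans hQ147 (by norm_num) (by norm_num)).trans hQ148 (by norm_num) (by norm_num)).trans hQ149 (by norm_num) (by norm_num)).trans hQ150 (by norm_num) (by norm_num)).trans hQ151 (by norm_num) (by norm_num)).trans hQ152 (by norm_num) (by norm_num)).trans hQ153 (by norm_num) (by norm_num)).trans hQ154 (by norm_num) (by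 norm_num)).trans hQ155 (by norm_num) (by norm_num)).trans hQ156 (by norm_num) (by norm_num)).trans hQ157 (by norm_num) (by norm_num)).trans hQ158 (by norm_num) (by norm_num)).trans hQ159 (by norm_num) (by norm_num)).trans hQ160 (by norm_num) (by norm_num)

end Vale.Agent.P355.H182K
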