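import Vale.Agent.P355.H182K.D
import Vale.Agent.P355.H182K.B0
import Vale.Agent.P355.H182K.B1
import Vale.Agent.P355.H182K.B2
import Vale.Agent.P355.H182K.B3
import Vale.Agent.P355.H182K.B4
import Vale.Agent.P355.H182K.B5
import Vale.Agent.P355.H182K.B6
import Vale.Agent.P355.H182K.B7
import Vale.Agent.P355.H182K.B8
import Vale.Agent.P355.H182K.B9
import Vale.Agent.P355.H182K.B10
import Vale.Agent.P355.H182K.B11
import Vale.Agent.P355.H182K.B12
import Vale.Agent.P355.H182K.B13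
import Vale.Agent.P355.H182K.B14
import Vale.Agent.P355.H182.Bk

namespace Vale.Agent.P355.H182K

open Vale.Agent.P355 Vale.Agent.P355.H147 Vale.Agent.P355.H998.E Vale.Agent.P355.H41.F1 Vale.Agent.P355.H129 Vale.Agent.P355.H182.Bk

def fs : List LB := [f0, f1, f2, f3, f4, f5, f6, f7, f8, f9, f10, f11, f12, f13, f14]

noncomputable def t : TyE := ⟨RcE 6 40, 144, 68, 84, 10, 66, 0x10000000000000000, 136, BP, 46656, fs.map (LB.toBD 68 268435456 240), EL⟩

theorem bok : BOk 144 G.nu 240 84 10 0x10000000000000000 68 66 (fs.map (LB.toBD 68 268435456 240)) :=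
  BOk.consL (BOk.consL (BOk.consL (BOk.consL (BOk.consL (BOk.consL (BOk.consL (BOk.consL (BOk.consL (BOk.consL (BOk.consL (BOk.consL (BOk.consL (BOk.consL (BOk.consL (BOk.nil _ _ _ _ _ _ _ _) bk14 fk14) bk13 fk13) bk12 fk12) bk11 fk11) bk10 fk10) bk9 fk9) bk8 fk8) bk7 fk7) bk6 fk6) bk5 fk5) bk4 fk4) bk3 fk3) bk2 fk2) bk1 fk1) bk0 fk0

theorem tok : t.Ok G.nu 240 :=
  ⟨bok, by decide +kernel, fun e => RcE_le 6 40 e⟩

theorem fok : FOk 68 29 66 268435456 0x10000000000000000 240 fs := FOk.cons fk0 (FOk.cons fk1 (FOk.cons fk2 (FOk.cons fk3 (FOk.cons fk4 (FOk.cons fk5 (FOk.cons fk6 (FOk.cons fk7 (FOk.cons fk8 (FOk.cons fk9 (FOk.cons fk10 (FOk.cons fk11 (FOk.cons fk12 (FOk.cons fk13 (FOk.cons fk14 (FOk.nil _ _ _ _ _ _)))))))))))))))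

end Vale.Agent.P355.H182K
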